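import Crest.Agent.X212.Flo2.Lev
import Crest.Agent.X212.Cyc79.Xf
import Crest.Agent.X212.Pb50.Act
import Crest.Agent.X212.Eqv71.Gau
import Crest.Agent.X212.Sob92.Iso

-- ▼ part X212/Flo2/Ext
section

/-!
# Row 212, layer AN-S (helper2): extension of terms from faces

Terms are `p2 (∑ f dg ∧ dh)` for scalar functions `f, g, h` that are consistent on all faces.
-/

set_option autoImplicit false
set_option linter.unusedSectionVars false
noncomputable section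
open scoped Manifold ContDiff Topology InnerProductSpace
open MeasureTheory Set Function Filter

namespace Crest.Agent.X212.Flo2
open An Cyf70 Sw

variable {κ lam ν : Type} [Fintype κ] [Fintype lam] [Fintype ν] [DecidableEq ν]

/-- scalar functions on a family -/
abbrev Sc (g : Gc κ lam ν) : Type := Tk g.k → g.X.M → ℝ

/-- smooth, with uniform supports -/
structure Sc.OK {g : Gc κ lam ν} (f : Sc g) : Prop where
  sm : Prm93.JS g.X.I univ f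
  cf : ∃ r, ∀ t, ∀ x ∉ g.s.core r, f t x = 0
  ret : ∀ t, f t = f (g.clp t)

/-- `f` on the node `x` is consistent with the functions `F` on the faces of `x` -/
structure Con (x : Nod κ lam ν) (f : Sc x.1) (F : ∀ x : Nod κ lam ν, Sc x.1) : Prop where
  f0 : ∀ c, ∀ t ∈ x.1.dom, t c = 0 → ∀ y,
    f t (x.2.nd.φ0 c y) = F ⟨_, x.2.f0 c⟩ (t ∘ x.2.nd.ι0 c) y
  f1 : ∀ c, x.1.wl c = none → ∀ t ∈ x.1.dom, t c = 1 → ∀ y,
    f t (x.2.nd.l c 3 y) = F ⟨_, x.2.f1 c⟩ (t ∘ x.2.nd.ι1 c) y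
  wl : ∀ c, x.1.wl c ≠ none → ∃ T, ∀ t, T ≤ t c →
    f t = psh (x.2.nd.l c (t c)) (F ⟨_, x.2.f1 c⟩ (t ∘ x.2.nd.ι1 c)) +
      psh ((x.2.nd.φ2 c).trans (x.2.nd.r c (t c)))
        (F ⟨_, x.2.f2 c⟩ (t ∘ x.2.nd.ι2 c ∘ x.2.nd.ι3 c))

/-- `y` is a face of `x` -/
def Nod.Ch (x y : Nod κ lam ν) : Prop := ∃ c, y = ⟨_, x.2.f0 c⟩ ∨ y = ⟨_, x.2.f1 c⟩ ∨
  (x.1.wl c ≠ none ∧ y = ⟨_, x.2.f2 c⟩)

variable (mk : Mk κ lam ν)

/-- EXT-W: the functions at a wall are smooth for long necks -/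
def ExtWStmt : Prop := ∀ x : Nod κ lam ν, x.2.WF mk → ∀ c, x.1.wl c ≠ none →
  ∀ (f₁ : Sc (x.2.nd.g1 c)) (f₂ : Sc (x.2.nd.g2 c)), f₁.OK → f₂.OK → ∃ T, ∃ f : Sc x.1, f.OK ∧
    ∀ t, T ≤ t c → f t = psh (x.2.nd.l c (t c)) (f₁ (t ∘ x.2.nd.ι1 c)) +
      psh ((x.2.nd.φ2 c).trans (x.2.nd.r c (t c))) (f₂ (t ∘ x.2.nd.ι2 c ∘ x.2.nd.ι3 c))

/-- EXT-A: consistent functions on the faces extend (from EXT-W) -/
def ExtAStmt : Prop := ∀ x : Nod κ lam ν, x.2.WF mk → ∀ F : ∀ x : Nod κ lam ν, Sc x.1,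
  (∀ y, x.Ch y → (F y).OK ∧ Con y (F y) F) → ∃ f : Sc x.1, f.OK ∧ Con x f F

/-- EXT-G: a function on one node that vanishes near its faces extends to a consistent system
(from EXT-A, by induction on the dimension) -/
def ExtGStmt : Prop := ∀ 𝒦 : Set (Nod κ lam ν), Cld 𝒦 → (∀ x ∈ 𝒦, x.2.WF mk) → ∀ x ∈ 𝒦,
  ∀ f : Sc x.1, f.OK → Con x f 0 → ∃ F : ∀ y : Nod κ lam ν, Sc y.1, F x = f ∧
    ∀ y ∈ 𝒦, (F y).OK ∧ Con y (F y) F

/-- the form `p2 (∑ f dg ∧ dh)` -/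
def frm {X : M.Mf 4} {nc : ℕ} (b : Bg X.I X.M κ lam ν nc) {n : ℕ} (f g h : Fin n → X.M → ℝ)
    (x : X.M) : F2 κ := b.p2 x (WithLp.toLp 2 fun s =>
  ∑ a, f a x * b.F.D s.1 (g a) x * b.F.D s.2 (h a) x)

variable (κ lam ν) in
/-- EXT-F: properties of the forms -/
structure ExtFStmt : Prop where
  /-- all forms -/
  all : ∀ (X : M.Mf 4) (nc : ℕ) (b : Bg X.I X.M κ lam ν nc), b.OK → ∀ fo ∈ Sec X.I b.p2,
    ∃ (n : ℕ) (f g h : Fin n → X.M → ℝ), (∀ a, f a ∈ Sec X.I (triv X.M ℝ) ∧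
      g a ∈ Sec X.I (triv X.M ℝ) ∧ h a ∈ Sec X.I (triv X.M ℝ)) ∧ frm b f g h = fo
  /-- naturality -/
  nat : ∀ (X X' : M.Mf 4) (nc nc' : ℕ) (b : Bg X.I X.M κ lam ν nc) (b' : Bg X'.I X'.M κ lam ν nc')
    φ U u α, b.OK → b'.OK → b.Iso b' φ U u α → ∀ (n : ℕ) (f g h : Fin n → X'.M → ℝ),
    (∀ a, Sm X'.I (g a) ∧ Sm X'.I (h a)) → ∀ x ∈ φ.source, ∀ s, frm b' f g h (φ x) s =
      ∑ a, ∑ a', U x s.1 a * U x s.2 a' *
        frm b (fun a => f a ∘ φ) (fun a => g a ∘ φ) (fun a => h a ∘ φ) x (a, a')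
  /-- smooth families -/
  fam : ∀ g : Gc κ lam ν, g.OK → ∀ (n : ℕ) (F : Fin 3 → Fin n → Sc g), (∀ i a, (F i a).OK) →
    (∀ t, frm (g.P t).bg (fun a => F 0 a t) (fun a => F 1 a t) (fun a => F 2 a t) ∈
      Sec g.X.I (g.P t).bg.p2) ∧ Prm93.SB g.s.bg.F.toPre univ
        (fun t => frm (g.P t).bg (fun a => F 0 a t) (fun a => F 1 a t) fun a => F 2 a t)
  /-- bounds on compact sets of parameters -/
  bd : ∀ g : Gc κ lam ν, g.OK → ∀ fo : Tk g.k → g.X.M → F2 κ, Prm93.SB g.s.bg.F.toPre univ fo →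
    (∃ r, ∀ t, ∀ x ∉ g.s.core r, fo t x = 0) → ∀ D, IsCompact D → ∃ s, ∀ t ∈ D,
      (g.P t).bg.F.CB 6 (fo t) s ∧ (g.P t).bg.F.nrm 0 (fo t) ≤ s

end Crest.Agent.X212.Flo2
end
end

-- ▼ part X212/Hp13/ExtS
section

/-!
# X212 / Hp13 (helper13): extension by zero along a stretched neck
-/

set_option autoImplicit false
set_option linter.unusedSectionVars false
noncomputable section
open scoped Manifold ContDiff Topology
open Set Function Filter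

namespace Crest.Agent.X212.Hp13.Ext
open Flo2 (psh)
open M (Mf)
open Prm93 (JAt JS)

section psh
variable {A B C : Type} [TopologicalSpace A] [TopologicalSpace B] [TopologicalSpace C]
  {φ ψ : OpenPartialHomeomorph A B} {f f' : A → ℝ} {x : A} {y : B}

theorem psh_app (h : x ∈ φ.source) : psh φ f (φ x) = f x := by
  simp [psh, indicator_of_mem (φ.map_source h), φ.left_inv h]

theorem psh_ne (h : psh φ f y ≠ 0) : ∃ x ∈ φ.source, φ x = y ∧ f x ≠ 0 := by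
  have k : y ∈ φ.target := by_contra fun k => h (indicator_of_notMem k _)
  exact ⟨_, φ.map_target k, φ.right_inv k, by rwa [psh, indicator_of_mem k] at h⟩

theorem psh_add : psh φ (f + f') = psh φ f + psh φ f' := indicator_add' _ (f ∘ φ.symm) (f' ∘ φ.symm)

theorem psh_zero : psh φ (0 : A → ℝ) = 0 := indicator_zero' _

theorem psh_sum (L : List (A → ℝ)) : psh φ L.sum = (L.map (psh φ)).sum := by
  induction L with
  | nil => exact psh_zero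
  | cons a L ih => rw [List.sum_cons, psh_add, ih, List.map_cons, List.sum_cons]

theorem psh_trans (χ : OpenPartialHomeomorph B C) : psh (φ.trans χ) f = psh χ (psh φ f) := by
  funext z
  by_cases h : z ∈ χ.target <;> by_cases k : χ.symm z ∈ φ.target <;> simp [psh, h, k]

theorem psh_congr (h : ∀ x, f x ≠ 0 → x ∈ φ.source ∧ x ∈ ψ.source ∧ φ x = ψ x) :
    psh φ f = psh ψ f := by
  funext y
  by_cases k : psh φ f y = 0
  · by_contra e
    obtain ⟨x, -, rfl, h2⟩ := psh_ne (k ▸ Ne.symm e : psh ψ f y ≠ 0)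
    rw [← (h x h2).2.2, psh_app (h x h2).1] at k
    exact h2 k
  · obtain ⟨x, h1, rfl, h2⟩ := psh_ne k
    rw [psh_app h1, (h x h2).2.2, psh_app (h x h2).2.1]

theorem eq_psh (hs : φ.source = univ) (ht : φ.target = univ) {g : B → ℝ} :
    g = psh φ f ↔ ∀ x, g (φ x) = f x :=
  ⟨fun h x => h ▸ psh_app (hs ▸ trivial), fun h => funext fun y => by
    have k : y ∈ φ.target := ht ▸ trivial
    rw [← φ.right_inv k, h, psh_app (φ.map_target k)]⟩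

/-- compact sets are eventually mapped into a compact set -/
def Exh (l : ℝ → OpenPartialHomeomorph A B) : Prop := ∀ K, IsCompact K → ∃ T K', IsCompact K' ∧
  ∀ u ≥ T, K ⊆ (l u).source ∧ MapsTo (l u) K K'

theorem exh_const (h : φ.source = univ) : Exh fun _ => φ := fun K k =>
  ⟨0, φ '' K, k.image_of_continuousOn (φ.continuousOn.mono (h ▸ subset_univ _)), fun _ _ =>
    ⟨h ▸ subset_univ _, mapsTo_image _ _⟩⟩

theorem Exh.trans {l : ℝ → OpenPartialHomeomorph B C} (e : Exh l) (h : φ.source = univ) :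
    Exh fun u => φ.trans (l u) := fun K k => by
  obtain ⟨T₁, K₁, a, b⟩ := exh_const h K k
  obtain ⟨T, K', c, d⟩ := e K₁ a
  exact ⟨T, K', c, fun u hu => ⟨fun x hx => ⟨(b T₁ le_rfl).1 hx, (d u hu).1 ((b T₁ le_rfl).2 hx)⟩,
    fun x hx => (d u hu).2 ((b T₁ le_rfl).2 hx)⟩⟩

end psh

variable {X X₁ X₂ : Mf 4} {Y : Mf 3} {T : Type} [NormedAddCommGroup T] [NormedSpace ℝ T]

/-- one side of a stretched neck `n` of length `v` -/
structure Sd (v : T → ℝ) (l : ℝ → OpenPartialHomeomorph X₁.M X.M) (n : T → Y.M × ℝ → X.M) where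
  d : X₁.M → ℝ
  χ : Y.M × ℝ → X₁.M
  ε : ℝ
  pos : 0 < ε
  cd : Continuous d
  src : ∀ u ≥ 3, (l u).source = {x | d x < u}
  sm : ContMDiffOn X.I X₁.I ∞ (l 3).symm (l 3).target
  fix : ∀ u ≥ 3, ∀ x, d x ≤ ε → l u x = l 3 x
  sχ : ContMDiffOn (Y.I.prod 𝓘(ℝ, ℝ)) X₁.I ∞ χ (univ ×ˢ Ioi 0)
  dχ : ∀ y, ∀ u > 0, d (χ (y, u)) = u
  sur : ∀ x, 0 < d x → ∃ y, χ (y, d x) = x
  nk : ∀ t, 3 ≤ v t → ∀ y, ∀ u ∈ Ioo 0 (v t), l (v t) (χ (y, u)) = n t (y, u)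

/-- the neck coordinates are smooth -/
def NS (v : T → ℝ) (n : T → Y.M × ℝ → X.M) : Prop := ∀ t, 3 < v t → ∀ y, ∀ u ∈ Ioo 0 (v t),
  ∃ π : T × X.M → Y.M × ℝ, ContMDiffAt (𝓘(ℝ, T).prod X.I) (Y.I.prod 𝓘(ℝ, ℝ)) ∞ π (t, n t (y, u)) ∧
    ∀ᶠ z in 𝓝 (t, n t (y, u)), (π z).2 ∈ Ioo 0 (v z.1) ∧ n z.1 (π z) = z.2

variable {v : T → ℝ} {l : ℝ → OpenPartialHomeomorph X₁.M X.M}
  {r : ℝ → OpenPartialHomeomorph X₂.M X.M} {n n' : T → Y.M × ℝ → X.M}

theorem Sd.out (S : Sd v l n) {t : T} (ht : 3 ≤ v t) {x : X₁.M} (hx : x ∈ (l (v t)).source)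
    (h : 0 < S.d x) : l (v t) x ∈ n t '' (univ ×ˢ Ioo 0 (v t)) := by
  obtain ⟨y, e⟩ := S.sur x h
  rw [S.src _ ht] at hx
  exact ⟨(y, S.d x), ⟨trivial, h, hx⟩, by rw [← S.nk t ht y _ ⟨h, hx⟩, e]⟩

theorem Sd.nbh (S : Sd v l n) {t : T} (ht : 3 ≤ v t) {x : X.M} (hx : x ∈ (l (v t)).target)
    (h : x ∉ n t '' (univ ×ˢ Ioo 0 (v t))) : ∀ᶠ x' in 𝓝 x, x' ∈ (l 3).target ∧
      S.d ((l 3).symm x') < 3 ∧ ∀ u ≥ 3, l u ((l 3).symm x') = x' := by
  obtain ⟨a, ha, rfl⟩ : ∃ a ∈ (l (v t)).source, l (v t) a = x :=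
    ⟨_, (l _).map_target hx, (l _).right_inv hx⟩
  have k : S.d a ≤ 0 := not_lt.1 fun k => h (S.out ht ha k)
  have p := S.pos
  have a3 : a ∈ (l 3).source := by rw [S.src 3 le_rfl]; exact k.trans_lt (by norm_num)
  rw [S.fix _ ht a (k.trans p.le)]
  have := ((l 3).isOpen_inter_preimage_symm (isOpen_lt S.cd (continuous_const (y := min S.ε 3)))).mem_nhds
    (x := l 3 a) ⟨(l 3).map_source a3, by
      rw [mem_preimage, (l 3).left_inv a3]; exact k.trans_lt (lt_min p (by norm_num))⟩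
  filter_upwards [this] with x' hx'
  exact ⟨hx'.1, hx'.2.trans_le (min_le_right _ _), fun u hu => by
    rw [S.fix u hu _ (hx'.2.le.trans (min_le_left _ _)), (l 3).right_inv hx'.1]⟩

theorem Sd.eq (S : Sd v l n) {t : T} (ht : 3 ≤ v t) {x : X₁.M} (hx : x ∈ (l (v t)).source) {y : Y.M}
    {u : ℝ} (hu : u ∈ Ioo 0 (v t)) (e : l (v t) x = n t (y, u)) : S.d x = u := by
  rw [(l _).injOn hx (by rw [S.src _ ht, mem_ofPred, S.dχ y u hu.1]; exact hu.2)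
    (e.trans (S.nk t ht y u hu).symm), S.dχ y u hu.1]

theorem Sd.jat (S : Sd v l n) (S' : Sd v r n') (hn : NS v n) (hv : Continuous v)
    (e : ∀ t, 3 ≤ v t → ∀ y u, n' t (y, v t - u) = n t (y, u))
    (cov : ∀ t, 3 ≤ v t → ∀ x, x ∈ (l (v t)).target ∨ x ∈ (r (v t)).target)
    (cap : ∀ t, 3 ≤ v t → ∀ x ∈ (l (v t)).target, x ∈ (r (v t)).target →
      x ∈ n t '' (univ ×ˢ Ioo 0 (v t)))
    {f : T → X₁.M → ℝ} (hf : JS X₁.I univ f) {K : Set X₁.M} (hK : IsCompact K)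
    (h0 : ∀ t, ∀ x ∉ K, f t x = 0) :
    ∃ T₀, ∀ t, T₀ < v t → ∀ x, JAt X.I (fun t => psh (l (v t)) (f t)) t x := by
  obtain ⟨R, hR⟩ := hK.bddAbove_image S.cd.continuousOn
  refine ⟨max 3 (R + 3), fun t ht x => ?_⟩
  have t3 : 3 < v t := (le_max_left _ _).trans_lt ht
  have ev : ∀ᶠ z : T × X.M in 𝓝 (t, x), max 3 (R + 3) < v z.1 :=
    (isOpen_lt continuous_const (hv.comp continuous_fst)).mem_nhds ht
  by_cases k : x ∈ n t '' (univ ×ˢ Ioo 0 (v t))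
  · obtain ⟨⟨y, u⟩, hu, rfl⟩ := k
    obtain ⟨π, p1, p2⟩ := hn t t3 y u hu.2
    refine ContMDiffAt.congr_of_eventuallyEq (f := fun z => f z.1 (S.χ (π z)))
      (ContMDiffAt.comp (g := fun z : T × X₁.M => f z.1 z.2) (f := fun z => (z.1, S.χ (π z))) _
        (hf _ trivial _) (contMDiffAt_fst.prodMk ((S.sχ.contMDiffAt ((isOpen_univ.prod isOpen_Ioi).mem_nhds
          ⟨trivial, p2.self_of_nhds.1.1⟩)).comp _ p1))) ?_
    filter_upwards [ev, p2] with z z1 z2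
    have z3 := ((le_max_left _ _).trans_lt z1).le
    rw [← z2.2, ← S.nk z.1 z3 (π z).1 _ z2.1, psh_app (by
      rw [S.src _ z3, mem_ofPred, S.dχ _ _ z2.1.1]; exact z2.1.2)]
  rcases cov t t3.le x with c | c
  · have N := S.nbh t3.le c k
    refine ContMDiffAt.congr_of_eventuallyEq (f := fun z => f z.1 ((l 3).symm z.2))
      (ContMDiffAt.comp (g := fun z : T × X₁.M => f z.1 z.2) (f := fun z : T × X.M => (z.1, (l 3).symm z.2)) _
        (hf _ trivial _) (contMDiffAt_fst.prodMk ((S.sm.contMDiffAt ((l 3).open_target.mem_nhds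
          N.self_of_nhds.1)).comp _ contMDiffAt_snd))) ?_
    filter_upwards [ev, (continuous_snd.tendsto (t, x)).eventually N] with z z1 z2
    have z3 := ((le_max_left _ _).trans_lt z1).le
    conv_lhs => rw [← z2.2.2 _ z3]
    exact psh_app (by rw [S.src _ z3]; exact z2.2.1.trans_le z3)
  · have N := S'.nbh t3.le c fun ⟨p, h1, h2⟩ => k ⟨(p.1, v t - p.2),
      ⟨trivial, sub_pos.2 h1.2.2, sub_lt_self _ h1.2.1⟩, by rw [← e t t3.le, sub_sub_cancel, h2]⟩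
    refine ContMDiffAt.congr_of_eventuallyEq (f := fun _ => 0) contMDiffAt_const ?_
    filter_upwards [ev, (continuous_snd.tendsto (t, x)).eventually N] with z z1 z2
    have z3 := ((le_max_left _ _).trans_lt z1).le
    by_contra h
    obtain ⟨a, a1, a2, a3⟩ := psh_ne h
    have b1 : (r 3).symm z.2 ∈ (r (v z.1)).source := by rw [S'.src _ z3]; exact z2.2.1.trans_le z3
    obtain ⟨⟨y, u⟩, hu, e'⟩ := cap z.1 z3 z.2 (a2 ▸ (l _).map_source a1)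
      (z2.2.2 _ z3 ▸ (r _).map_source b1)
    have h1 := S.eq z3 a1 hu.2 (a2.trans e'.symm)
    have h2 := S'.eq z3 b1 (y := y) ⟨sub_pos.2 hu.2.2, sub_lt_self _ hu.2.1⟩
      (by rw [z2.2.2 _ z3, e _ z3, e'])
    have h3 := hR (mem_image_of_mem _ (by_contra fun j => a3 (h0 _ a j)))
    have h4 := (le_max_right _ _).trans_lt z1
    linarith [z2.2.1]

theorem Sd.exh (S : Sd v l n) (hv : Surjective v) {K₀ : Set X.M} (h₀ : IsCompact K₀)
    (h : ∀ t, 3 ≤ v t → n t '' (univ ×ˢ Ioo 0 (v t)) ⊆ K₀) : Exh l := fun K hK => by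
  obtain ⟨R, hR⟩ := hK.bddAbove_image S.cd.continuousOn
  refine ⟨max 3 (R + 1), l 3 '' (K ∩ {x | S.d x ≤ 0}) ∪ K₀,
    ((hK.inter_right (isClosed_le S.cd continuous_const)).image_of_continuousOn
      ((l 3).continuousOn.mono fun x hx => ?_)).union h₀, fun u hu => ?_⟩
  · rw [S.src 3 le_rfl]
    exact (show S.d x ≤ 0 from hx.2).trans_lt three_pos
  obtain ⟨t, rfl⟩ := hv u
  have t3 := (le_max_left _ _).trans hu
  have s : K ⊆ (l (v t)).source := fun x hx => by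
    rw [S.src _ t3]
    exact (hR (mem_image_of_mem _ hx)).trans_lt ((lt_add_one R).trans_le ((le_max_right _ _).trans hu))
  refine ⟨s, fun x hx => ?_⟩
  by_cases k : S.d x ≤ 0
  · exact Or.inl ⟨x, ⟨hx, k⟩, (S.fix _ t3 x (k.trans S.pos.le)).symm⟩
  · exact Or.inr (h t t3 (S.out t3 (s hx) (not_le.1 k)))

end Crest.Agent.X212.Hp13.Ext
end
end

-- ▼ part X212/Hp13/ExtW
section

/-!
# X212 / Hp13 (helper13): EXT-W, the functions at a wall
-/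

set_option autoImplicit false
set_option linter.unusedSectionVars false
noncomputable section
open scoped Manifold ContDiff Topology
open Set Function Filter

namespace Crest.Agent.X212.Hp13.Ext
open Flo2 Sw
open M (Mf pm)
open Nd18 (Jv)
open Prm93 (JAt JS)

variable {κ lam ν : Type} [Fintype κ] [Fintype lam] [Fintype ν] [DecidableEq ν]

/-- cross-sections of equal types -/
def cst {ε ε' : Ty κ lam ν} (h : ε = ε') (y : ε.en.Y.M) : ε'.en.Y.M := h ▸ y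

theorem cst_sm {ε ε' : Ty κ lam ν} (h : ε = ε') : ContMDiff ε.en.Y.I ε'.en.Y.I ∞ (cst h) := by
  subst h; exact contMDiff_id

theorem cst_sur {ε ε' : Ty κ lam ν} (h : ε = ε') : Surjective (cst h) := by
  subst h; exact surjective_id

theorem ψ_cst {ε ε' : Ty κ lam ν} (h : ε = ε') {X : Mf 4} {nc : ℕ} {b : Bg X.I X.M κ lam ν nc}
    (K : Nk ε.en b) (y : ε.en.Y.M) (τ : ℝ) : (h ▸ K : Nk ε'.en b).ψ (cst h y, τ) = K.ψ (y, τ) := by
  subst h; rfl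

section nk
variable {X : Mf 4} {nc : ℕ} {e : En3 κ lam ν} {b : Bg X.I X.M κ lam ν nc} (K : Nk e b)

/-- the origin of the side `s` -/
def org (s : Bool) : ℝ := (bif s then K.p else K.q).getD 0

theorem img {S : Set ℝ} (h : S ⊆ K.J) : K.ψ '' (univ ×ˢ S) = K.tm ⁻¹' S := by
  ext x
  refine ⟨?_, fun k => ?_⟩
  · rintro ⟨z, hz, rfl⟩
    rw [mem_preimage, K.tm_ψ z (K.src ▸ ⟨trivial, h hz.2⟩)]
    exact hz.2
  · have a : x ∈ K.ψ.target := K.tgt ▸ h k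
    exact ⟨_, ⟨trivial, by rw [← K.tm_ψ _ (K.ψ.map_target a), K.ψ.right_inv a]; exact k⟩,
      K.ψ.right_inv a⟩

theorem jv_fin {a v : ℝ} (hp : K.p = some a) (hq : K.q = some (a + v)) (s : Bool) (τ : ℝ) :
    τ ∈ K.J ↔ pm s * (τ - org K s) ∈ Ioo 0 v := by
  cases s <;> simp [Jv, org, pm, hp, hq, sub_lt_iff_lt_add', and_comm]

theorem jv_end {s : Bool} (h : K.Inf s) {o : ℝ} (ho : (bif s then K.p else K.q) = some o) (ε τ : ℝ) :
    τ ∈ K.deep ε ↔ ε < pm s * (τ - org K s) := by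
  cases s
  · simp [Nk.deep, Jv, org, pm, show K.p = none from h, show K.q = some o from ho, lt_sub_comm]
  · simp [Nk.deep, Jv, org, pm, show K.q = none from h, show K.p = some o from ho, lt_sub_iff_add_lt']

theorem deep0 : K.deep 0 = K.J := by simp [Nk.deep]

end nk

theorem pm_pm (s : Bool) (x : ℝ) : pm s * (pm s * x) = x := by cases s <;> simp [pm]

variable {g g₁ : Gc κ lam ν} {c : Fin g.k} {i : g.N}

/-- coordinates on the neck `i`, from the side `s` -/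
def nn (i : g.N) (x₀ : g.X.M) (s : Bool) (t : Tk g.k) (z : (g.ty i).en.Y.M × ℝ) : g.X.M :=
  ((g.P t).nk i).elim x₀ fun K => K.ψ (z.1, org K s + pm s * z.2)

theorem str (h : g.OK) (hi : g.wl c = some i) {t : Tk g.k} (ht : 3 ≤ t c) : g.𝓕.Str t i ∧
    ∃ K a, (g.P t).nk i = some K ∧ K.p = some a ∧ K.q = some (a + t c) := by
  obtain ⟨h1, -, h2⟩ := h.wl c i hi
  have h3 := (h2 t).2.2 ht
  have S := (h.fam.nk t (h.Q ▸ trivial) i h1).resolve_left fun k => by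
    have k := k.self_of_nhds
    rcases e : (g.P t).nk i with _ | K
    · rw [Pz.len, e] at h3
      linarith [show (2 : ℝ) = t c from h3]
    · obtain ⟨a, k1, k2⟩ := k K e
      rw [Pz.len, e, Option.elim_some, k1, k2] at h3
      linarith [show a + 2 - a = t c from h3]
  refine ⟨S, ?_⟩
  obtain ⟨K, e, a, b, k1, k2, -⟩ := S
  rw [Pz.len, show (g.P t).nk i = some K from e, Option.elim_some, k1, k2] at h3
  exact ⟨K, a, e, k1, by rw [k2, ← h3]; simp⟩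

theorem nn_img {t : Tk g.k} {K : Nk (g.ty i).en (g.P t).bg} (e : (g.P t).nk i = some K) {a : ℝ}
    (hp : K.p = some a) (hq : K.q = some (a + t c)) (x₀ : g.X.M) (s : Bool) :
    nn i x₀ s t '' (univ ×ˢ Ioo 0 (t c)) = K.ψ.target := by
  rw [← K.ψ.image_source_eq_target, K.src, show nn i x₀ s t = fun z => K.ψ (z.1, org K s + pm s * z.2)
    from funext fun z => by simp only [nn, e, Option.elim_some]]
  ext x
  exact ⟨fun ⟨z, a, b⟩ => ⟨_, ⟨trivial, (jv_fin K hp hq s _).2 (by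
    rw [add_sub_cancel_left, pm_pm]; exact a.2)⟩, b⟩, fun ⟨z, a, b⟩ =>
    ⟨(z.1, _), ⟨trivial, (jv_fin K hp hq s _).1 a.2⟩, by
      simp only [pm_pm, add_sub_cancel, b]⟩⟩

theorem ns (h : g.OK) (hi : g.wl c = some i) (x₀ : g.X.M) (s : Bool) :
    NS (fun t => t c) (nn i x₀ s) := fun t ht y u hu => by
  obtain ⟨⟨K', e, a, b, k1, k2, ℓ, V, hV, l1, l2⟩, K, a', e', p', q'⟩ := str h hi ht.le
  obtain rfl : K = K' := Option.some_injective _ (e'.symm.trans e)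
  have m : nn i x₀ s t (y, u) ∈ K.ψ.target :=
    nn_img e' p' q' x₀ s ▸ mem_image_of_mem _ ⟨trivial, hu⟩
  generalize nn i x₀ s t (y, u) = x at m
  have a1 : ContMDiffAt (𝓘(ℝ, Tk g.k).prod g.X.I) ((g.ty i).en.Y.I.prod 𝓘(ℝ, ℝ)) ∞
      (fun z : Tk g.k × g.X.M => K.ψ.symm z.2) (t, x) :=
    (K.iso.sm'.contMDiffAt (K.ψ.open_target.mem_nhds m)).comp _ contMDiffAt_snd
  have a2 : ∀ {w : Tk g.k × g.X.M → ℝ}, ContMDiffAt (𝓘(ℝ, Tk g.k).prod g.X.I) 𝓘(ℝ, ℝ) ∞ w (t, x) →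
      ContMDiffAt (𝓘(ℝ, Tk g.k).prod g.X.I) 𝓘(ℝ, ℝ) ∞ (fun z => ℓ (z.1, w z)) (t, x) := fun k =>
    ContDiffAt.comp_contMDiffAt (g := ℓ) (f := fun z : Tk g.k × g.X.M => (z.1, _))
      (l1.contDiffAt (prod_mem_nhds hV univ_mem)) (contMDiffAt_fst.prodMk_space k)
  refine ⟨fun z => ((K.ψ.symm z.2).1, pm s * (ℓ (z.1, (K.ψ.symm z.2).2) - ℓ (z.1, org K s))),
    a1.fst.prodMk (contMDiffAt_const.mul ((a2 a1.snd).sub (a2 contMDiffAt_const))), ?_⟩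
  filter_upwards [(continuous_fst.tendsto (t, x)).eventually hV, (continuous_snd.tendsto (t, x)).eventually
    (K.ψ.open_target.mem_nhds m), (isOpen_lt continuous_const
      ((continuous_apply c).comp continuous_fst)).mem_nhds ht] with z z1 z2 z3
  obtain ⟨d, L', e1, p, q, k⟩ := l2 z.1 z1
  obtain ⟨-, L, a'', e2, p2, q2⟩ := str h hi (le_of_lt z3)
  obtain rfl : L = L' := Option.some_injective _ (e2.symm.trans e1)
  have w : (K.ψ.symm z.2).2 ∈ Ioo a b := by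
    have : _ ∈ Jv K.p K.q := (K.src ▸ K.ψ.map_target z2).2
    simpa [Jv, k1, k2] using this
  have o : org L s = ℓ (z.1, org K s) := by cases s <;> simp [org, p, q, k1, k2]
  have mo := strictMono_of_deriv_pos d
  refine ⟨o ▸ (jv_fin L p2 q2 s _).1 (by simpa [Jv, p, q] using ⟨mo w.1, mo w.2⟩), ?_⟩
  simp only [nn, e2, Option.elim_some]
  rw [pm_pm, o, add_sub_cancel, k _ _ w]
  exact K.ψ.right_inv z2

theorem nn_flip (h : g.OK) (hi : g.wl c = some i) (x₀ : g.X.M) (s : Bool) (t : Tk g.k) (ht : 3 ≤ t c)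
    (y : (g.ty i).en.Y.M) (u : ℝ) : nn i x₀ (!s) t (y, t c - u) = nn i x₀ s t (y, u) := by
  obtain ⟨-, K, a, e, p, q⟩ := str h hi ht
  simp only [nn, e, Option.elim_some]
  congr 2
  cases s
  · simp [org, pm, p, q]; ring
  · simp [org, pm, p, q]

theorem nn_core (h : g.OK) (hi : g.wl c = some i) (x₀ : g.X.M) (s : Bool) (t : Tk g.k) (ht : 3 ≤ t c) :
    nn i x₀ s t '' (univ ×ˢ Ioo 0 (t c)) ⊆ g.s.core 0 := by
  obtain ⟨-, K, a, e, p, q⟩ := str h hi ht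
  rw [nn_img e p q]
  rintro x hx j b L hL - ⟨z, hz, rfl⟩
  obtain ⟨L', e1, e2⟩ := h.fam.en t (h.Q ▸ trivial) j L hL
  have n : i ≠ j := fun k => by subst k; simp [(h.wl c i hi).1] at hL
  refine disjoint_left.1 ((h.fam.ok t (h.Q ▸ trivial)).dj n K e L' e1) hx ?_
  rw [show L'.ψ = L.ψ from congrArg (·.2.2.1) e2]
  exact L.ψ.map_source (L.src ▸ ⟨trivial, hz.2.1⟩)

theorem sd_of (h : g.OK) (h₁ : g₁.OK) (hi : g.wl c = some i) {j : g₁.N} {s : Bool}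
    {ι : Fin g₁.k → Fin g.k} {l : ℝ → OpenPartialHomeomorph g₁.X.M g.X.M} {δ : ℝ → ℝ}
    {r : g₁.N → g.N → Prop} {e : Fin g₁.nc → Fin g.nc}
    (H : ∀ t, 3 ≤ t c → Hlf (en := Ty.en) (ty := g.ty) (ty₁ := g₁.ty) (g.P t) i (g₁.P (t ∘ ι)) j s
      (l (t c)) (δ (t c)) r e) (hs : g₁.s.Inf j s) {ε : ℝ} (hε : 0 < ε)
    (fx : ∀ K ∈ g₁.s.nk j, ∀ x ∉ K.ψ '' (univ ×ˢ K.deep ε), ∀ v ≥ 3, l v x = l 3 x) (x₀ : g.X.M) :
    Nonempty (Sd (fun t => t c) l (nn i x₀ s)) := by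
  obtain ⟨L, hL, hs⟩ := hs
  obtain ⟨h0, -⟩ := (H (fun _ => 3) le_rfl).nk
  have key : ∀ t, 3 ≤ t c → (∃ o, (bif s then L.p else L.q) = some o) ∧
      (l (t c)).source = {x | pm s * (L.tm x - org L s) < t c} ∧ ∀ y, ∀ u ∈ Ioo 0 (t c),
        l (t c) (L.ψ (cst h0 y, org L s + pm s * u)) = nn i x₀ s t (y, u) := fun t ht => by
    obtain ⟨-, K, a, e1, p, q⟩ := str h hi ht
    obtain ⟨_, K', e2, K₁, e3, -, k1, k2, k3⟩ := (H t ht).nk
    obtain rfl : K = K' := Option.some_injective _ (e1.symm.trans e2)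
    obtain ⟨L', e4, e5⟩ := h₁.fam.en (t ∘ ι) (h₁.Q ▸ trivial) j L hL
    obtain rfl : K₁ = L' := Option.some_injective _ (e3.symm.trans e4)
    have b1 : K₁.p = L.p := congrArg (·.1) e5
    have b2 : K₁.q = L.q := congrArg (·.2.1) e5
    have b3 : K₁.ψ = L.ψ := congrArg (·.2.2.1) e5
    obtain ⟨o, o1, o2⟩ : ∃ o, (bif s then L.p else L.q) = some o ∧ org K s = org L s + δ (t c) := by
      cases s
      · obtain ⟨o, o1, o2⟩ := Option.map_eq_some_iff.1 (k1.symm.trans q)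
        exact ⟨o, b2 ▸ o1, by simp [org, q, ← b2, o1, o2]⟩
      · obtain ⟨o, o1, o2⟩ := Option.map_eq_some_iff.1 (k1.symm.trans p)
        exact ⟨o, b1 ▸ o1, by simp [org, p, ← b1, o1, o2]⟩
    have j1 : ∀ τ, τ ∈ L.J ↔ 0 < pm s * (τ - org L s) := fun τ => deep0 L ▸ jv_end L hs o1 0 τ
    have j2 : ∀ τ, τ + δ (t c) ∈ K.J ↔ pm s * (τ - org L s) ∈ Ioo 0 (t c) := fun τ => by
      rw [jv_fin K p q s, o2, add_sub_add_right_eq_sub]
    rw [Nd18.Nk.J, b1, b2, b3] at k2 k3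
    refine ⟨⟨o, o1⟩, ?_, fun y u hu => ?_⟩
    · rw [k2, img L fun _ k => k.1]
      ext x
      simp only [mem_ofPred, mem_preimage, j1, j2, mem_Ioo]
      exact ⟨fun k => not_le.1 fun m => k ⟨by linarith, fun n => n.2.not_ge m⟩,
        fun k m => m.2 ⟨m.1, k⟩⟩
    · have : pm s * (org L s + pm s * u - org L s) = u := by rw [add_sub_cancel_left, pm_pm]
      rw [k3 _ _ ((j1 _).2 (this.symm ▸ hu.1)) ((j2 _).2 (this.symm ▸ hu)), ψ_cst]
      simp only [nn, e1, Option.elim_some, o2, add_right_comm]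
  obtain ⟨⟨o, o1⟩, -⟩ := key (fun _ => 3) le_rfl
  have j1 : ∀ τ, τ ∈ L.J ↔ 0 < pm s * (τ - org L s) := fun τ => deep0 L ▸ jv_end L hs o1 0 τ
  have m : ∀ y, ∀ u > 0, (cst h0 y, org L s + pm s * u) ∈ L.ψ.source := fun y u hu =>
    L.src ▸ ⟨trivial, (j1 _).2 (by rwa [add_sub_cancel_left, pm_pm])⟩
  refine ⟨⟨fun x => pm s * (L.tm x - org L s), fun z => L.ψ (cst h0 z.1, org L s + pm s * z.2), ε, hε,
    continuous_const.mul (L.cont.sub continuous_const), fun u hu => (key (fun _ => u) hu).2.1,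
    (H (fun _ => 3) le_rfl).lit.iso.sm', fun u hu x hx => fx L hL x ?_ u hu,
    L.iso.sm.comp (((cst_sm h0).comp contMDiff_fst).prodMk
      (contMDiff_const.add (contMDiff_const.mul contMDiff_snd))).contMDiffOn fun z hz => m _ _ hz.2,
    fun y u hu => by rw [L.tm_ψ _ (m y u hu), add_sub_cancel_left, pm_pm], fun x hx => ?_,
    fun t ht => (key t ht).2.2⟩⟩
  · rw [img L fun τ k => (j1 τ).2 (hε.trans ((jv_end L hs o1 ε τ).1 k)), mem_preimage, jv_end L hs o1]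
    exact hx.not_gt
  · obtain ⟨z, z1, z2⟩ : x ∈ L.ψ '' (univ ×ˢ {L.tm x}) := by
      rw [img L (singleton_subset_iff.2 ((j1 _).2 hx))]; rfl
    obtain ⟨y, e⟩ := cst_sur h0 z.1
    exact ⟨y, by rw [pm_pm, add_sub_cancel, e, ← show z.2 = _ from z1.2, z2]⟩

/-- the walls correspond -/
def Mt (g₁ g : Gc κ lam ν) (ι : Fin g₁.k → Fin g.k) : Prop := ∀ c, g₁.wl c = none ↔ g.wl (ι c) = none

theorem mt_of {ι : Fin g₁.k → Fin g.k} {r : g₁.N → g.N → Prop} (h : ∀ c, (g₁.wl c = none ∧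
    g.wl (ι c) = none) ∨ ∃ i ∈ g₁.wl c, ∃ i' ∈ g.wl (ι c), r i i') : Mt g₁ g ι := fun c => by
  rcases h c with h | ⟨i, h1, i', h2, -⟩
  · simp [h]
  · simp [show g₁.wl c = some i from h1, show g.wl (ι c) = some i' from h2]

theorem Mt.clp {ι : Fin g₁.k → Fin g.k} (h : Mt g₁ g ι) (t : Tk g.k) :
    g.clp t ∘ ι = g₁.clp (t ∘ ι) := funext fun c => by
  have := h c
  rcases e : g₁.wl c with _ | i <;> rcases e' : g.wl (ι c) with _ | i' <;> simp_all [Bs.clp]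

theorem Mt.dom {ι : Fin g₁.k → Fin g.k} (h : Mt g₁ g ι) {t : Tk g.k} (ht : t ∈ g.dom) :
    t ∘ ι ∈ g₁.dom := fun c => ⟨(ht _).1, fun k => (ht _).2 ((h c).1 k)⟩

theorem fc_mt {D ι φ n} (h : g.Fc g₁ D ι φ n) : Mt g₁ g ι :=
  let ⟨_, _, _, k, _⟩ := h.iso; mt_of k

theorem fc_gl {D ι φ n} (h : g.Fc g₁ D ι φ n) (hD : D.Nonempty) : φ.source = univ ∧ φ.target = univ ∧
    ContMDiff g.X.I g₁.X.I ∞ φ.symm := by
  obtain ⟨e, r, -, -, -, -, -, k⟩ := h.iso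
  obtain ⟨_, _, _, _, -, k⟩ := k _ hD.some_mem
  obtain ⟨_, m⟩ := k.iso.g
  exact ⟨k.src, k.tgt, contMDiffOn_univ.1 (k.tgt ▸ m.sm')⟩

theorem ok_of {f : Sc g} (sm : JS g.X.I univ f) {K : Set g.X.M} (hK : IsCompact K)
    (h0 : ∀ t, ∀ x ∉ K, f t x = 0) (ret : ∀ t, f t = f (g.clp t)) : f.OK := by
  have : ∀ i, ∃ r, ∀ L ∈ g.s.nk i, ∀ x ∈ K, |L.tm x| ≤ r := fun i => by
    rcases g.s.nk i with _ | L
    · simp
    · obtain ⟨r, hr⟩ := hK.bddAbove_image L.cont.abs.continuousOn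
      exact ⟨r, fun L' e x hx => Option.some_injective _ e ▸ hr (mem_image_of_mem _ hx)⟩
  choose r hr using this
  obtain ⟨R, hR⟩ := Finite.bddAbove_range r
  refine ⟨sm, ⟨R, fun t x hx => h0 t x fun k => hx fun i s L hL _ m => ?_⟩, ret⟩
  rw [img L (S := L.far s R) inter_subset_left] at m
  have h1 : R < pm s * L.tm x := m.2
  have h2 := abs_le.1 ((hr i L hL x k).trans (hR (mem_range_self i)))
  cases s <;> simp only [pm] at h1 <;> simp at h1 <;> linarith [h2.1, h2.2]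

theorem ok_cpt (h : g.OK) {f : Sc g} (hf : f.OK) : ∃ K, IsCompact K ∧ ∀ t, ∀ x ∉ K, f t x = 0 :=
  let ⟨r, k⟩ := hf.cf; ⟨_, h.fam.site.cpt r, k⟩

theorem js_comp {ι : Fin g₁.k → Fin g.k} {f : Sc g₁} (hf : f.OK) :
    JS g₁.X.I univ fun t : Tk g.k => f (t ∘ ι) := fun _ _ x =>
  (hf.sm _ trivial x).reparam (contDiff_pi.2 fun c => contDiff_apply ℝ ℝ (ι c)).contDiffAt

theorem psh_sup {A B : Type} [TopologicalSpace A] [TopologicalSpace B] {φ : OpenPartialHomeomorph A B}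
    {f : A → ℝ} {K : Set A} {K' : Set B} (h0 : ∀ x ∉ K, f x = 0) (h : MapsTo φ K K') :
    ∀ y ∉ K', psh φ f y = 0 := fun _ hy => by_contra fun k =>
  let ⟨x, _, a, b⟩ := psh_ne k; hy (a ▸ h (by_contra fun j => b (h0 x j)))

theorem ok_psh {D ι φ n} (h : g.Fc g₁ D ι φ n) (hD : D.Nonempty) (h₁ : g₁.OK) {f : Sc g₁} (hf : f.OK) :
    Sc.OK (g := g) fun t => psh φ (f (t ∘ ι)) := by
  obtain ⟨a, b, d⟩ := fc_gl h hD
  obtain ⟨K, k1, k2⟩ := ok_cpt h₁ hf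
  obtain ⟨T, K', k3, k4⟩ := exh_const a K k1
  refine ok_of (fun t _ x => ?_) k3 (fun t => psh_sup (k2 _) (k4 T le_rfl).2) fun t => by
    rw [(fc_mt h).clp, ← hf.ret]
  simp only [psh, b, indicator_univ]
  exact ContMDiffAt.comp (g := fun z : Tk g.k × g₁.X.M => f (z.1 ∘ ι) z.2)
    (f := fun z : Tk g.k × g.X.M => (z.1, φ.symm z.2)) _ (js_comp hf _ trivial _)
    (contMDiffAt_fst.prodMk ((d _).comp _ contMDiffAt_snd))

theorem clp_wl (hi : g.wl c ≠ none) (t : Tk g.k) : g.clp t c = max 0 (t c) := by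
  obtain ⟨i, e⟩ := Option.ne_none_iff_exists'.1 hi
  simp [Bs.clp, e]

theorem zero_dom (g : Gc κ lam ν) : 0 ∈ g.dom := fun _ => ⟨le_rfl, fun _ => zero_le_one⟩

theorem sides (n : Nd g) (h₁ : (n.g1 c).OK) (hi : g.wl c = some i) : ∃ x₀,
    Nonempty (Sd (fun t => t c) (n.l c) (nn i x₀ true)) ∧
    Nonempty (Sd (fun t => t c) (n.r c) (nn i x₀ false)) ∧
    (∀ t : Tk g.k, 3 ≤ t c → (n.l c (t c)).target ∪ (n.r c (t c)).target = univ ∧ ∀ s,
      (n.l c (t c)).target ∩ (n.r c (t c)).target = nn i x₀ s t '' (univ ×ˢ Ioo 0 (t c))) ∧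
    Mt _ g (n.ι1 c) ∧ Mt _ g (n.ι2 c) := by
  obtain ⟨W, h₂, -⟩ := n.wl c i hi
  obtain ⟨j₁, a1, j₂, a2, r₁, r₂, e, -, -, -, -, m1, m2, -, -, -, -, ⟨δ, H⟩, ε, hε, f1, f2⟩ := W.spl
  obtain ⟨x₀⟩ := n.ok.fam.site.con.toNonempty
  refine ⟨x₀, sd_of n.ok h₁ hi (δ := fun v => (δ v).1) (fun t ht => (H t ht).l') ((h₁.out _).2 ?_) hε f1 x₀,
    sd_of n.ok h₂ hi (δ := fun v => (δ v).2) (fun t ht => (H t ht).r') ((h₂.inn _).2 a2) hε f2 x₀,
    fun t ht => ⟨(H t ht).cov, fun s => ?_⟩, mt_of m1, mt_of m2⟩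
  · cases h : n.cap c <;> rw [h] at a1
    exacts [Or.inl a1, Or.inr a1]
  · obtain ⟨-, K, a, e, p, q⟩ := str n.ok hi ht
    rw [nn_img e p q, (H t ht).cap K e]

theorem exh_l (n : Nd g) (h₁ : (n.g1 c).OK) : Exh (n.l c) := by
  rcases hi : g.wl c with _ | i
  · obtain ⟨-, a, b⟩ := n.f1 c hi
    rw [funext a]
    exact exh_const (fc_gl b ⟨Pi.single c 1, fun c' => by
      rcases eq_or_ne c' c with rfl | k <;> simp [*], by simp⟩).1
  · obtain ⟨x₀, ⟨S⟩, -⟩ := sides n h₁ hi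
    exact S.exh (fun u => ⟨fun _ => u, rfl⟩) (n.ok.fam.site.cpt 0) (nn_core n.ok hi x₀ _)

theorem exh_r (n : Nd g) (h₁ : (n.g1 c).OK) (hi : g.wl c = some i) :
    Exh fun u => (n.φ2 c).trans (n.r c u) := by
  obtain ⟨x₀, -, ⟨S⟩, -⟩ := sides n h₁ hi
  exact (S.exh (fun u => ⟨fun _ => u, rfl⟩) (n.ok.fam.site.cpt 0) (nn_core n.ok hi x₀ _)).trans
    (fc_gl (n.wl c i hi).2.2.2.1 ⟨_, zero_dom _⟩).1

/-- **EXT-W** -/
theorem extW (mk : Mk κ lam ν) : ExtWStmt mk := fun ⟨g, τ⟩ _ c hc f₁ f₂ o1 o2 => by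
  obtain ⟨i, hi⟩ := Option.ne_none_iff_exists'.1 hc
  have h₁ := (τ.f1 c).nd.ok
  have fc := (τ.nd.wl c i hi).2.2.2.1
  have o3 := ok_psh fc ⟨_, zero_dom _⟩ (τ.f2 c).nd.ok o2
  obtain ⟨x₀, ⟨S⟩, ⟨S'⟩, H, m1, m2⟩ := sides τ.nd h₁ hi
  obtain ⟨K₁, a1, a2⟩ := ok_cpt h₁ o1
  obtain ⟨K₂, b1, b2⟩ := ok_cpt (τ.f2 c).nd.ok o2
  obtain ⟨K₃, c1, c2⟩ := ok_cpt (τ.nd.wl c i hi).2.1 o3
  obtain ⟨T₁, d1⟩ := S.jat S' (ns τ.nd.ok hi x₀ _) (continuous_apply c) (nn_flip τ.nd.ok hi x₀ true)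
    (fun t ht x => ((H t ht).1 ▸ mem_univ x :)) (fun t ht x a b => (H t ht).2 _ ▸ ⟨a, b⟩)
    (js_comp (ι := τ.nd.ι1 c) o1) a1 fun _ => a2 _
  obtain ⟨T₂, d2⟩ := S'.jat S (ns τ.nd.ok hi x₀ _) (continuous_apply c) (nn_flip τ.nd.ok hi x₀ false)
    (fun t ht x => Or.symm ((H t ht).1 ▸ mem_univ x :)) (fun t ht x a b => (H t ht).2 _ ▸ ⟨b, a⟩)
    (js_comp (ι := τ.nd.ι2 c) o3) c1 fun _ => c2 _
  obtain ⟨T₃, K₄, e1, e2⟩ := exh_l τ.nd h₁ K₁ a1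
  obtain ⟨T₄, K₅, e3, e4⟩ := exh_r τ.nd h₁ hi K₂ b1
  obtain ⟨T, t0, t1, t2, t3, t4⟩ : ∃ T : ℝ, 0 ≤ T ∧ T₁ < T ∧ T₂ < T ∧ T₃ ≤ T ∧ T₄ ≤ T :=
    ((eventually_ge_atTop _).and ((eventually_gt_atTop _).and ((eventually_gt_atTop _).and
      ((eventually_ge_atTop _).and (eventually_ge_atTop _))))).exists
  have z : ∀ u, u < T → Real.smoothTransition (u - T) = 0 := fun u h =>
    Real.smoothTransition.zero_of_nonpos (by linarith)
  refine ⟨T + 1, fun t => Real.smoothTransition (t c - T) • (psh (τ.nd.l c (t c)) (f₁ (t ∘ τ.nd.ι1 c)) +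
    psh ((τ.nd.φ2 c).trans (τ.nd.r c (t c))) (f₂ (t ∘ τ.nd.ι2 c ∘ τ.nd.ι3 c))),
    ok_of (fun t _ x => ?_) (e1.union e3) (fun t x hx => ?_) fun t => ?_, fun t ht => by
      simp only [Real.smoothTransition.one_of_one_le (le_sub_iff_add_le'.2 ht), one_smul]⟩
  · rcases lt_or_ge (t c) T with k | k
    · refine ContMDiffAt.congr_of_eventuallyEq (f := fun _ => 0) contMDiffAt_const ?_
      filter_upwards [(isOpen_lt ((continuous_apply c).comp continuous_fst) continuous_const).mem_nhds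
        (x := (t, x)) k] with p hp
      simp [z (p.1 c) hp]
    · simp only [psh_trans]
      exact (JAt.of_par (Real.smoothTransition.contDiff.comp ((contDiff_apply ℝ ℝ c).sub
        contDiff_const)).contDiffAt).mul ((d1 t (t1.trans_le k) x).add (d2 t (t2.trans_le k) x))
  · rcases lt_or_ge (t c) T with k | k
    · simp [z _ k]
    · simp [psh_sup (a2 _) (e2 _ (t3.trans k)).2 x fun j => hx (Or.inl j),
        psh_sup (b2 _) (e4 _ (t4.trans k)).2 x fun j => hx (Or.inr j)]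
  · simp only [clp_wl hc]
    rcases le_total 0 (t c) with k | k
    · rw [max_eq_right k, m1.clp, ← o1.ret, ← comp_assoc (g.clp t), m2.clp, (fc_mt fc).clp, ← o2.ret]
      rfl
    · rw [max_eq_left k, Real.smoothTransition.zero_of_nonpos (by linarith),
        Real.smoothTransition.zero_of_nonpos (by linarith), zero_smul, zero_smul]

end Crest.Agent.X212.Hp13.Ext
end
end

-- ▼ part X212/Hp13/ExtA
section

/-!
# X212 / Hp13 (helper13): EXT-A and EXT-G, extension of functions from the faces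
-/

set_option autoImplicit false
set_option linter.unusedSectionVars false
noncomputable section
open scoped Manifold ContDiff Topology
open Set Function Filter

namespace Crest.Agent.X212.Hp13.Ext
open Flo2 Sw
open Prm93 (JAt JS)
open Real (smoothTransition)

variable {κ lam ν : Type} [Fintype κ] [Fintype lam] [Fintype ν] [DecidableEq ν]
  {g : Gc κ lam ν} {τ : Tr g} {F : ∀ x : Nod κ lam ν, Sc x.1} {c c' : Fin g.k} {s s' : Bool}
  {t : Tk g.k} {T : ℝ} {p q : Flo2.Pi g} {f : Sc g}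

/-- the function of a piece -/
def pv (F : ∀ x : Nod κ lam ν, Sc x.1) (t : Tk g.k) (p : Flo2.Pi g) : g.X.M → ℝ :=
  psh (p.φ t) (F ⟨_, p.τ⟩ (t ∘ p.ι))

/-- `t` lies on the face `(c, s)` -/
def At (g : Gc κ lam ν) (T : ℝ) (c : Fin g.k) (s : Bool) (t : Tk g.k) : Prop :=
  bif s then (if g.wl c = none then t c = 1 else T ≤ t c) else t c = 0

theorem At.mono (h : At g T c s t) {T' : ℝ} (k : T' ≤ T) : At g T' c s t := by
  cases s
  · exact h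
  · unfold At at *
    split_ifs at * <;> [exact h; exact k.trans h]

theorem one_ne (hc : g.wl c = none) : {t ∈ g.dom | t c = 1}.Nonempty := ⟨Pi.single c 1, fun c' => by
  rcases eq_or_ne c' c with rfl | k <;> simp [*], by simp⟩

theorem pcs_nw (hc : g.wl c = none) (G : Flo2.Pi g → g.X.M → ℝ) : ((τ.pcs c true).map G).sum =
    G ⟨_, τ.f1 c, τ.nd.ι1 c, fun _ => τ.nd.l c 3⟩ := by
  simp [Tr.pcs, hc, (τ.nd.f1 c hc).2.1]

theorem pcs_wl (hc : g.wl c ≠ none) : ((τ.pcs c true).map (pv F t)).sum =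
    psh (τ.nd.l c (t c)) (F ⟨_, τ.f1 c⟩ (t ∘ τ.nd.ι1 c)) + psh ((τ.nd.φ2 c).trans (τ.nd.r c (t c)))
      (F ⟨_, τ.f2 c⟩ (t ∘ τ.nd.ι2 c ∘ τ.nd.ι3 c)) := by
  simp [Tr.pcs, hc, pv]

/-- consistency beyond `T` -/
def Cn (τ : Tr g) (f : Sc g) (F : ∀ x : Nod κ lam ν, Sc x.1) (T : ℝ) : Prop :=
  ∀ c s, ∀ t ∈ g.dom, At g T c s t → f t = ((τ.pcs c s).map (pv F t)).sum

theorem gl0 (τ : Tr g) (c : Fin g.k) : (τ.nd.φ0 c).source = univ ∧ (τ.nd.φ0 c).target = univ :=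
  let k := fc_gl (τ.nd.f0 c).2 ⟨0, zero_dom _, rfl⟩; ⟨k.1, k.2.1⟩

theorem gl1 (τ : Tr g) (hc : g.wl c = none) : (τ.nd.l c 3).source = univ ∧ (τ.nd.l c 3).target = univ :=
  let k := fc_gl (τ.nd.f1 c hc).2.2 (one_ne hc); ⟨k.1, k.2.1⟩

theorem con_cn (h : Con ⟨g, τ⟩ f F) : ∀ᶠ T in atTop, Cn τ f F T := by
  refine eventually_all.2 fun c => eventually_all.2 fun s => ?_
  cases s
  · exact .of_forall fun T t ht k => by
      simpa [Tr.pcs, pv] using (eq_psh (gl0 τ c).1 (gl0 τ c).2).2 (h.f0 c t ht k)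
  by_cases hc : g.wl c = none
  · exact .of_forall fun T t ht k => by
      rw [pcs_nw hc]
      exact (eq_psh (gl1 τ hc).1 (gl1 τ hc).2).2 (h.f1 c hc t ht (by simpa [At, hc] using k))
  · obtain ⟨T₀, k₀⟩ := h.wl c hc
    filter_upwards [eventually_ge_atTop T₀] with T hT t _ k
    rw [pcs_wl hc]
    exact k₀ t (hT.trans (by simpa [At, hc] using k))

theorem clp_dom (t : Tk g.k) : g.clp t ∈ g.dom := fun c => by
  rcases e : g.wl c with _ | i <;> simp [Bs.clp, e]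

/-- properties of the pieces of a face -/
structure PG (τ : Tr g) (c : Fin g.k) (s : Bool) (p : Flo2.Pi g) : Prop where
  ch : Nod.Ch ⟨g, τ⟩ ⟨_, p.τ⟩
  mt : Mt _ g p.ι
  inj : Injective p.ι
  ne : ∀ j, p.ι j ≠ c
  ex : ∃ l, Exh l ∧ (∀ t, p.φ t = l (t c)) ∧ ((s = true ∧ g.wl c ≠ none) ∨ ∀ u, l u = l 3)

theorem pg (h : p ∈ τ.pcs c s) : PG τ c s p := by
  have r : ∀ {n} {ι : Fin n → Fin g.k}, range ι = {c}ᶜ → ∀ j, ι j ≠ c := fun e j =>
    (e ▸ mem_range_self j : _ ∈ ({c}ᶜ : Set _))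
  cases s
  · obtain rfl := List.mem_singleton.1 h
    exact ⟨⟨c, .inl rfl⟩, fc_mt (τ.nd.f0 c).2, (τ.nd.f0 c).2.inj, r (τ.nd.f0 c).1, _,
      exh_const (gl0 τ c).1, fun _ => rfl, .inr fun _ => rfl⟩
  have ex := exh_l τ.nd (τ.f1 c).nd.ok
  rcases hi : g.wl c with _ | i
  · obtain rfl : p = _ := by simpa [Tr.pcs, hi] using h
    obtain ⟨a, b, d⟩ := τ.nd.f1 c hi
    exact ⟨⟨c, .inr (.inl rfl)⟩, fc_mt d, d.inj, r a, _, ex, fun _ => rfl, .inr b⟩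
  obtain ⟨-, -, -, -, m1, m2⟩ := sides τ.nd (τ.f1 c).nd.ok hi
  obtain ⟨W, -, -, fc, -⟩ := τ.nd.wl c i hi
  have b := W.bij.1
  have hc : g.wl c ≠ none := by simp [hi]
  obtain rfl | rfl : p = _ ∨ p = _ := by simpa [Tr.pcs, hi] using h
  · exact ⟨⟨c, .inr (.inl rfl)⟩, m1, fun a a' e => by simpa using @b (.inl (.inl a)) (.inl (.inl a')) e,
      fun j e => by simpa using @b (.inl (.inl j)) (.inr ()) e, _, ex, fun _ => rfl, .inl ⟨rfl, hc⟩⟩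
  · exact ⟨⟨c, .inr (.inr ⟨hc, rfl⟩)⟩, fun j => (fc_mt fc j).trans (m2 _),
      fun a a' e => fc.inj (by simpa using @b (.inl (.inr _)) (.inl (.inr _)) e),
      fun j e => by simpa using @b (.inl (.inr _)) (.inr ()) e, _, exh_r τ.nd (τ.f1 c).nd.ok hi,
      fun _ => rfl, .inl ⟨rfl, hc⟩⟩

theorem ch_pcs {y : Nod κ lam ν} (h : Nod.Ch ⟨g, τ⟩ y) : ∃ c s, ∃ p ∈ τ.pcs c s, y = ⟨_, p.τ⟩ := by
  obtain ⟨c, h | h | ⟨h', h⟩⟩ := h
  · exact ⟨c, false, _, List.mem_singleton_self _, h⟩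
  · exact ⟨c, true, _, List.mem_cons_self, h⟩
  · exact ⟨c, true, _, List.mem_cons_of_mem _ (by rw [if_neg h']; exact List.mem_singleton_self _), h⟩

theorem ch_lt {x y : Nod κ lam ν} (h : x.Ch y) : y.1.k < x.1.k := by
  obtain ⟨c, s, p, k, rfl⟩ := ch_pcs h
  simpa using Fintype.card_lt_of_injective_of_notMem _ (pg k).inj (b := c) fun ⟨j, e⟩ => (pg k).ne j e

theorem cn_con (hf : f.OK) (hF : ∀ y, Nod.Ch ⟨g, τ⟩ y → (F y).OK) (h : Cn τ f F T) : Con ⟨g, τ⟩ f F := by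
  refine ⟨fun c t ht k => (eq_psh (gl0 τ c).1 (gl0 τ c).2).1 (by simpa [Tr.pcs, pv] using h c false t ht k),
    fun c hc t ht k => (eq_psh (gl1 τ hc).1 (gl1 τ hc).2).1
      ((h c true t ht ((if_pos hc).mpr k)).trans (pcs_nw hc _)),
    fun c hc => ⟨max 0 T, fun t ht => ?_⟩⟩
  have e : g.clp t c = t c := by rw [clp_wl hc, max_eq_right ((le_max_left _ _).trans ht)]
  rw [hf.ret, h c true _ (clp_dom t) (by simpa [At, hc, e] using (le_max_right _ _).trans ht), ← pcs_wl hc]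
  refine congrArg _ (List.map_congr_left fun p hp => ?_)
  obtain ⟨l, -, k, -⟩ := (pg hp).ex
  rw [pv, pv, k, k, e, (pg hp).mt.clp, ← (hF _ (pg hp).ch).ret]

theorem At.comp {g₁ : Gc κ lam ν} {ι : Fin g₁.k → Fin g.k} (m : Mt g₁ g ι) {j : Fin g₁.k}
    (h : At g T (ι j) s t) : At g₁ T j s (t ∘ ι) := by
  simpa only [At, m j, comp_apply] using h

theorem two (h : g.k ≤ 2) (n : c ≠ c') {j : Fin g.k} (k : j ≠ c) : j = c' := by
  have := c.2; have := c'.2; have := j.2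
  rw [Ne, Fin.ext_iff] at n k
  exact Fin.ext (by omega)

theorem sum_flat {α β γ : Type*} [AddCommMonoid γ] (L : List α) (a : α → List β) (G : β → γ) :
    ((L.flatMap a).map G).sum = (L.map fun x => ((a x).map G).sum).sum := by
  induction L with
  | nil => rfl
  | cons x L ih => simp [ih]

theorem crn_eq (hF : ∀ y, Nod.Ch ⟨g, τ⟩ y → Con y (F y) F) (n : c ≠ c') (s s' : Bool) :
    ∀ᶠ T in atTop, ∀ t ∈ g.dom, At g T c' s' t →
      ((τ.pcs c s).map (pv F t)).sum = ((τ.crn c s s').map (pv F t)).sum := by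
  filter_upwards [(eventually_all_finite (τ.pcs c s).finite_toSet).2 fun p hp => con_cn (hF _ (pg hp).ch)]
    with T hT t ht k
  rw [Tr.crn, sum_flat]
  refine congrArg _ (List.map_congr_left fun p hp => ?_)
  split_ifs with h
  · rw [pv, hT p hp ⟨0, h⟩ s' _ ((pg hp).mt.dom ht)
      (At.comp (pg hp).mt (two τ.nd.ok.k2 n ((pg hp).ne _) ▸ k)), psh_sum, List.map_map, List.map_map]
    exact congrArg _ (List.map_congr_left fun q _ => (psh_trans _).symm)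
  · simp

theorem PG.cpt (h : PG τ c s p) {K : Set p.g'.X.M} (hK : IsCompact K) : ∃ K', IsCompact K' ∧
    ∀ᶠ T in atTop, ∀ t, At g T c s t → K ⊆ (p.φ t).source ∧ MapsTo (p.φ t) K K' ∧
      p.φ t = p.φ fun j => max 3 (t j) := by
  obtain ⟨l, e, k, w⟩ := h.ex
  obtain ⟨T₀, K', a, b⟩ := e K hK
  refine ⟨K', a, ?_⟩
  filter_upwards [eventually_ge_atTop T₀, eventually_ge_atTop 3] with T h1 h2 t ht
  rw [k, k]
  obtain ⟨rfl, hc⟩ | w := w
  · have : T ≤ t c := by simpa [At, hc] using ht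
    exact ⟨(b _ (h1.trans this)).1, (b _ (h1.trans this)).2, by rw [max_eq_right (h2.trans this)]⟩
  · rw [w, w (max _ _), ← w T₀]
    exact ⟨(b _ le_rfl).1, (b _ le_rfl).2, rfl⟩

theorem crn_cpt (h1 : ∀ y, Nod.Ch ⟨g, τ⟩ y → (F y).OK)
    (h2 : ∀ y z, Nod.Ch ⟨g, τ⟩ y → y.Ch z → (F z).OK) (n : c ≠ c') (h : p ∈ τ.crn c s s') :
    p.g'.k = 0 ∧ ∀ᶠ T in atTop, ∀ t, At g T c s t → At g T c' s' t →
      (∀ u x, F ⟨_, p.τ⟩ u x ≠ 0 → x ∈ (p.φ t).source) ∧ p.φ t = p.φ fun j => max 3 (t j) := by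
  obtain ⟨a, ha, h⟩ := List.mem_flatMap.1 h
  split_ifs at h with k
  · obtain ⟨b, hb, rfl⟩ := List.mem_map.1 h
    obtain ⟨K, k1, k2⟩ := ok_cpt b.τ.nd.ok (h2 _ _ (pg ha).ch (pg hb).ch)
    obtain ⟨K', k3, k4⟩ := (pg hb).cpt k1
    obtain ⟨_, -, k5⟩ := (pg ha).cpt k3
    refine ⟨by
      have := ch_lt (pg ha).ch; have := ch_lt (pg hb).ch; have := τ.nd.ok.k2
      simp only [Pi.comp] at *; omega, ?_⟩
    filter_upwards [k4, k5] with T a1 a2 t t1 t2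
    obtain ⟨b1, b2, b3⟩ := a1 _ (At.comp (pg ha).mt (two τ.nd.ok.k2 n ((pg ha).ne _) ▸ t2))
    obtain ⟨b4, -, b5⟩ := a2 t t1
    exact ⟨fun u x hx => have m : x ∈ K := by_contra fun j => hx (k2 u x j); ⟨b1 m, b4 (b2 m)⟩,
      congrArg₂ OpenPartialHomeomorph.trans b3 b5⟩
  · obtain rfl := List.mem_singleton.1 h
    obtain ⟨K, k1, k2⟩ := ok_cpt p.τ.nd.ok (h1 _ (pg ha).ch)
    obtain ⟨_, -, k4⟩ := (pg ha).cpt k1
    exact ⟨by omega, k4.mono fun T a t t1 _ =>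
      ⟨fun u x hx => (a t t1).1 (by_contra fun j => hx (k2 u x j)), (a t t1).2.2⟩⟩

theorem pv_eq (e : p.Eq q) (h0 : p.g'.k = 0) (h1 : ∀ u x, F ⟨_, p.τ⟩ u x ≠ 0 → x ∈ (p.φ t).source)
    (h2 : ∀ u x, F ⟨_, q.τ⟩ u x ≠ 0 → x ∈ (q.φ t).source) (h3 : p.φ t = p.φ fun j => max 3 (t j))
    (h4 : q.φ t = q.φ fun j => max 3 (t j)) : pv F t p = pv F t q := by
  obtain ⟨g₁, τ₁, ι₁, φ₁⟩ := p
  obtain ⟨g₂, τ₂, ι₂, φ₂⟩ := q
  obtain ⟨a, b, e⟩ := e
  obtain rfl : g₂ = g₁ := a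
  obtain rfl : τ₁ = τ₂ := b
  have := e _ fun j => le_max_left 3 (t j)
  rw [← h3, ← h4] at this
  rw [pv, pv, show t ∘ ι₂ = t ∘ ι₁ from funext fun j => (h0 ▸ j).elim0]
  exact psh_congr fun x hx => ⟨h1 _ x hx, h2 _ x hx, this x (h1 _ x hx) x (h2 _ x hx) HEq.rfl⟩

theorem map_eq {α β : Type*} {R : α → α → Prop} {a b : List α} (h : List.Forall₂ R a b) {G : α → β}
    (k : ∀ x ∈ a, ∀ y ∈ b, R x y → G x = G y) : a.map G = b.map G := by
  induction h with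
  | nil => rfl
  | cons h _ ih => rw [List.map_cons, List.map_cons, k _ List.mem_cons_self _ List.mem_cons_self h,
      ih fun x hx y hy => k x (List.mem_cons_of_mem _ hx) y (List.mem_cons_of_mem _ hy)]

theorem corner (hc : τ.Coh) (h1 : ∀ y, Nod.Ch ⟨g, τ⟩ y → (F y).OK ∧ Con y (F y) F)
    (h2 : ∀ y z, Nod.Ch ⟨g, τ⟩ y → y.Ch z → (F z).OK) (n : c ≠ c') (s s' : Bool) :
    ∀ᶠ T in atTop, ∀ t ∈ g.dom, At g T c s t → At g T c' s' t →
      ((τ.pcs c s).map (pv F t)).sum = ((τ.pcs c' s').map (pv F t)).sum := by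
  obtain ⟨l, l1, l2⟩ := hc c c' n s s'
  filter_upwards [crn_eq (fun y k => (h1 y k).2) n s s', crn_eq (fun y k => (h1 y k).2) n.symm s' s,
    (eventually_all_finite (τ.crn c s s').finite_toSet).2 fun p hp =>
      (crn_cpt (fun y k => (h1 y k).1) h2 n hp).2,
    (eventually_all_finite (τ.crn c' s' s).finite_toSet).2 fun p hp =>
      (crn_cpt (fun y k => (h1 y k).1) h2 n.symm hp).2] with T a1 a2 a3 a4 t ht t1 t2
  rw [a1 t ht t2, a2 t ht t1, (l1.map _).sum_eq, map_eq l2 fun p hp q hq e =>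
    pv_eq e (crn_cpt (fun y k => (h1 y k).1) h2 n hp).1 (a3 p hp t t1 t2).1
      (a4 q (l1.symm.subset hq) t t2 t1).1 (a3 p hp t t1 t2).2 (a4 q (l1.symm.subset hq) t t2 t1).2]

/-! ### blending -/

open Classical in
/-- the weight of the face `(c, true)` -/
def wt (g : Gc κ lam ν) (T : ℝ) (c : Fin g.k) (t : Tk g.k) : ℝ :=
  smoothTransition (t c - if g.wl c = none then 0 else T)

open Classical in
/-- the projection to the face `(c, s)` -/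
def pj (g : Gc κ lam ν) (c : Fin g.k) (s : Bool) (t : Tk g.k) : Tk g.k :=
  bif s then (if g.wl c = none then update t c 1 else t) else update t c 0

/-- the blend of two functions -/
def bl (T : ℝ) (c : Fin g.k) (h : Bool → Sc g) : Sc g := fun t =>
  (1 - wt g T c t) • h false (pj g c false t) + wt g T c t • h true (pj g c true t)

theorem ok_add {f' : Sc g} (h : g.OK) (a : f.OK) (b : f'.OK) : Sc.OK (f + f') := by
  obtain ⟨K, k1, k2⟩ := ok_cpt h a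
  obtain ⟨K', k3, k4⟩ := ok_cpt h b
  exact ok_of (fun t _ x => (a.sm t trivial x).add (b.sm t trivial x)) (k1.union k3) (fun t x hx => by
    simp [k2 t x fun j => hx (.inl j), k4 t x fun j => hx (.inr j)]) fun t => by
    simp only [Pi.add_apply, ← a.ret, ← b.ret]

theorem ok_smul (a : f.OK) {w : Tk g.k → ℝ} (hw : ContDiff ℝ ∞ w) (e : ∀ t, w (g.clp t) = w t) :
    Sc.OK (g := g) fun t => w t • f t :=
  ⟨fun t _ x => (JAt.of_par hw.contDiffAt).mul (a.sm t trivial x),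
    a.cf.imp fun _ k t x hx => by simp [k t x hx], fun t => by simp only [e, ← a.ret]⟩

theorem ok_sub {f' : Sc g} (h : g.OK) (a : f.OK) (b : f'.OK) : Sc.OK (f - f') := by
  convert ok_add h a (ok_smul b (contDiff_const (c := -1)) fun _ => rfl) using 1
  funext t; simp [sub_eq_add_neg]

theorem ok_zero : Sc.OK (g := g) 0 :=
  ⟨fun _ _ _ => contMDiffAt_const, ⟨0, fun _ _ _ => rfl⟩, fun _ => rfl⟩

theorem ok_upd (a : f.OK) (c : Fin g.k) (v : ℝ) : Sc.OK (g := g) fun t => f (update t c v) :=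
  ⟨fun t _ x => (a.sm _ trivial x).reparam (φ := fun t : Tk g.k => update t c v)
    (contDiff_pi.2 fun j => by
      rcases eq_or_ne j c with rfl | k
      · simpa using contDiff_const
      · simpa [k] using contDiff_apply ℝ ℝ j).contDiffAt, a.cf.imp fun _ k t => k _, fun t => by
    rw [a.ret, a.ret (update _ _ _)]
    congr 1
    funext j
    rcases eq_or_ne j c with rfl | k
    · simp [Bs.clp]
    · rcases e : g.wl j with _ | i <;> simp [Bs.clp, k, e]⟩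

theorem ok_bl (h : g.OK) (hT : 0 ≤ T) {H : Bool → Sc g} (a : ∀ s, (H s).OK) : (bl T c H).OK := by
  have w1 : ContDiff ℝ ∞ (wt g T c) :=
    smoothTransition.contDiff.comp ((contDiff_apply ℝ ℝ c).sub contDiff_const)
  have w2 : ∀ t, wt g T c (g.clp t) = wt g T c t := fun t => by
    rcases e : g.wl c with _ | i <;> simp only [wt, Bs.clp, e, Option.elim, reduceCtorEq, if_true, if_false]
    · rcases le_total (t c) 0 with k | k
      · simp [k, smoothTransition.zero_of_nonpos]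
      · rcases le_total (t c) 1 with k' | k' <;> simp [k, k', smoothTransition.one_of_one_le]
    · rcases le_total (t c) 0 with k | k
      · rw [max_eq_left k, smoothTransition.zero_of_nonpos (by linarith),
          smoothTransition.zero_of_nonpos (by linarith)]
      · rw [max_eq_right k]
  refine ok_add h (ok_smul (ok_upd (a false) c 0) (contDiff_const.sub w1) fun t => by rw [w2])
    (ok_smul (f := fun t => H true (pj g c true t)) ?_ w1 w2)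
  by_cases hc : g.wl c = none <;> simp only [pj, hc, cond_true, if_true, if_false]
  exacts [ok_upd (a true) c 1, a true]

theorem bl_at (hT : 0 ≤ T) {H : Bool → Sc g} (k : At g (T + 1) c s t) : bl T c H t = H s t := by
  cases s
  · have e : t c = 0 := k
    rw [bl, wt, smoothTransition.zero_of_nonpos (by split_ifs <;> linarith), pj, cond_false,
      update_eq_self_iff.2 e.symm]
    simp
  · by_cases hc : g.wl c = none <;> simp only [At, hc, cond_true, if_true, if_false] at k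
    · simp [bl, wt, pj, hc, k, (update_eq_self_iff (f := t)).2 k.symm]
    · simp [bl, wt, pj, hc, smoothTransition.one_of_one_le (le_sub_iff_add_le'.2 k)]

theorem bl_zero {H : Bool → Sc g} (ht : t ∈ g.dom) (k : ∀ s, ∀ u ∈ g.dom, At g T c s u →
    (∀ j ≠ c, u j = t j) → H s u = 0) : bl T c H t = 0 := by
  have u : ∀ v ∈ Icc (0 : ℝ) 1, update t c v ∈ g.dom := fun v hv j => by
    rcases eq_or_ne j c with rfl | n
    · simp [hv.1, hv.2]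
    · simpa [n] using ht j
  rw [bl, k false (pj g c false t) (u 0 (by simp)) (by simp [At, pj]) fun j n => by simp [pj, n]]
  by_cases hc : g.wl c = none
  · rw [k true _ (by simpa [pj, hc] using u 1 (by simp)) (by simp [At, pj, hc])
      fun j n => by simp [pj, hc, n]]
    simp
  · rcases le_total T (t c) with h | h
    · rw [k true _ (by simpa [pj, hc]) (by simpa [At, pj, hc]) fun j n => by simp [pj, hc]]
      simp
    · simp [wt, hc, smoothTransition.zero_of_nonpos (sub_nonpos.2 h)]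

variable {mk : Mk κ lam ν}

/-- **EXT-A**, for functions that are good on the faces of the faces -/
theorem extA (hw : τ.WF mk) (h1 : ∀ y, Nod.Ch ⟨g, τ⟩ y → (F y).OK ∧ Con y (F y) F)
    (h2 : ∀ y z, Nod.Ch ⟨g, τ⟩ y → y.Ch z → (F z).OK) : ∃ f : Sc g, f.OK ∧ Con ⟨g, τ⟩ f F := by
  have ok := τ.nd.ok
  have : ∀ c s, ∃ X : Sc g, X.OK ∧ ∀ᶠ T in atTop, ∀ t, At g T c s t →
      X t = ((τ.pcs c s).map (pv F t)).sum := fun c s => by
    cases s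
    · exact ⟨_, ok_psh (τ.nd.f0 c).2 ⟨0, zero_dom _, rfl⟩ (τ.f0 c).nd.ok (h1 _ ⟨c, .inl rfl⟩).1,
        .of_forall fun T t _ => by simp [Tr.pcs, pv]⟩
    have a := (h1 _ ⟨c, .inr (.inl rfl)⟩).1
    by_cases hc : g.wl c = none
    · exact ⟨_, ok_psh (τ.nd.f1 c hc).2.2 (one_ne hc) (τ.f1 c).nd.ok a,
        .of_forall fun T t _ => (pcs_nw (τ := τ) hc (pv F t)).symm⟩
    · obtain ⟨T₀, X, x1, x2⟩ := extW mk ⟨g, τ⟩ hw c hc _ _ a (h1 _ ⟨c, .inr (.inr ⟨hc, rfl⟩)⟩).1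
      exact ⟨X, x1, (eventually_ge_atTop T₀).mono fun T hT t k =>
        (x2 t (hT.trans (by simpa [At, hc] using k))).trans (pcs_wl hc).symm⟩
  choose X x1 x2 using this
  obtain ⟨T, t0, t1, t2⟩ := ((eventually_ge_atTop 0).and ((eventually_all.2 fun c => eventually_all.2
    (x2 c)).and (eventually_all.2 fun c => eventually_all.2 fun c' => eventually_all.2 fun n : c ≠ c' =>
      eventually_all.2 fun s => eventually_all.2 (corner hw.all.2.1 h1 h2 n s)))).exists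
  have m : ∀ {c s t}, At g (T + 1) c s t → At g T c s t := fun k => k.mono (by linarith)
  suffices ∃ f : Sc g, f.OK ∧ ∀ c s, ∀ t ∈ g.dom, At g (T + 1) c s t → f t = X c s t from
    this.imp fun f h => ⟨h.1, cn_con h.1 (fun y k => (h1 y k).1) fun c s t ht k =>
      (h.2 c s t ht k).trans (t1 c s t (m k))⟩
  rcases isEmpty_or_nonempty (Fin g.k) with e | ⟨⟨c⟩⟩
  · exact ⟨0, ok_zero, fun c => e.elim c⟩
  by_cases n : ∀ c', c' = c
  · exact ⟨_, ok_bl ok t0 (x1 c), fun c' s t _ k => by rw [n c'] at k ⊢; exact bl_at t0 k⟩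
  obtain ⟨c', n⟩ := not_forall.1 n
  have q := ok_bl (c := c) ok t0 (x1 c)
  refine ⟨_, ok_add ok q (ok_bl (c := c') ok t0 fun s => ok_sub ok (x1 c' s) q), fun j s t ht k => ?_⟩
  rcases eq_or_ne j c with rfl | e
  · rw [Pi.add_apply, bl_at t0 k, bl_zero ht fun s' u hu a b => ?_, add_zero]
    have k' : At g (T + 1) j s u := by simpa only [At, b j (Ne.symm n)] using k
    rw [Pi.sub_apply, bl_at t0 k', t1 _ _ _ a, t1 _ _ _ (m k'), t2 _ _ n _ _ u hu a (m k'), sub_self]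
  · obtain rfl := two ok.k2 (Ne.symm n) e
    rw [Pi.add_apply, bl_at t0 k, Pi.sub_apply, add_sub_cancel]

theorem con_congr {x : Nod κ lam ν} {f : Sc x.1} {F' : ∀ x : Nod κ lam ν, Sc x.1} (h : Con x f F)
    (e : ∀ y, x.Ch y → F' y = F y) : Con x f F' :=
  ⟨fun c => e _ ⟨c, .inl rfl⟩ ▸ h.f0 c, fun c => e _ ⟨c, .inr (.inl rfl)⟩ ▸ h.f1 c, fun c k =>
    e _ ⟨c, .inr (.inl rfl)⟩ ▸ e _ ⟨c, .inr (.inr ⟨k, rfl⟩)⟩ ▸ h.wl c k⟩

theorem cld_ch {𝒦 : Set (Nod κ lam ν)} (h : Cld 𝒦) {x y : Nod κ lam ν} (hx : x ∈ 𝒦) (k : x.Ch y) :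
    y ∈ 𝒦 := by
  obtain ⟨c, rfl | rfl | ⟨k, rfl⟩⟩ := k
  exacts [(h x hx c).1, (h x hx c).2.1, (h x hx c).2.2 k]

open Classical in
/-- **EXT-G** -/
theorem extG (mk : Mk κ lam ν) : ExtGStmt mk := fun 𝒦 hc hw x _ f hf h0 => by
  have : ∀ n, x.1.k < n → ∃ F : ∀ y : Nod κ lam ν, Sc y.1, F x = f ∧
      ∀ y ∈ 𝒦, y.1.k < n → (F y).OK ∧ Con y (F y) F := fun n hn => by
    induction n, hn using Nat.le_induction with
    | base =>
      refine ⟨update 0 x f, update_self .., fun y _ k => ?_⟩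
      have e : ∀ z, y.Ch z → update (0 : ∀ y : Nod κ lam ν, Sc y.1) x f z = 0 := fun z j =>
        update_of_ne (fun e => by have := ch_lt j; rw [e] at this; omega) _ _
      rcases eq_or_ne y x with rfl | n
      · rw [update_self]
        exact ⟨hf, con_congr h0 e⟩
      · rw [update_of_ne n]
        exact ⟨ok_zero, con_congr (F := 0) ⟨fun _ _ _ _ _ => rfl, fun _ _ _ _ _ _ => rfl,
          fun _ _ => ⟨0, fun _ _ => by simp [psh_zero]⟩⟩ e⟩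
    | succ n hn ih =>
      obtain ⟨F, e, k⟩ := ih
      have : ∀ y : Nod κ lam ν, ∃ f : Sc y.1, (y.1.k < n → f = F y) ∧
          (y ∈ 𝒦 → y.1.k < n + 1 → f.OK ∧ Con y f F) := fun y => by
        by_cases h : y ∈ 𝒦 ∧ y.1.k = n
        · exact (extA (hw y h.1) (fun z j => k z (cld_ch hc h.1 j) (h.2 ▸ ch_lt j)) fun z z' j j' =>
            (k z' (cld_ch hc (cld_ch hc h.1 j) j') (h.2 ▸ (ch_lt j').trans (ch_lt j))).1).imp
            fun f a => ⟨fun j => (j.ne h.2).elim, fun _ _ => a⟩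
        · exact ⟨F y, fun _ => rfl, fun a b => k y a (by have := not_and.1 h a; omega)⟩
      choose F' a b using this
      exact ⟨F', (a x hn).trans e, fun y hy j => ⟨(b y hy j).1,
        con_congr (b y hy j).2 fun z i => a z (by have := ch_lt i; omega)⟩⟩
  exact (this (x.1.k + 3) (by omega)).imp fun F h => ⟨h.1, fun y hy => h.2 y hy (by
    have := y.2.nd.ok.k2; omega)⟩

end Crest.Agent.X212.Hp13.Ext
end
end

-- ▼ part X212/Cyc79/Xg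
section

/-!
# Row 212, LV-EXT-F (helper79): the forms `p2 (∑ f dg ∧ dh)`
-/

set_option autoImplicit false
set_option linter.unusedSectionVars false
noncomputable section
open scoped Manifold ContDiff Topology InnerProductSpace
open MeasureTheory Set Function Filter

namespace Crest.Agent.X212.Cyc79
open An An.Pre Sob92 Prm93 Sw Flo2
open M (Mf)

variable {κ lam ν : Type} [Fintype κ] [Fintype lam] [Fintype ν] [DecidableEq ν]
  {X X' : Mf 4} {nc nc' n : ℕ} {b : Bg X.I X.M κ lam ν nc} {b' : Bg X'.I X'.M κ lam ν nc'}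

theorem xp2 (x : X.M) (η : F2 κ) (s : Option κ × Option κ) :
    b.p2 x η s = ∑ t, b.B.sd x s t * η t := by simp [Bg.p2]

theorem frm_apply (f g h : Fin n → X.M → ℝ) (x : X.M) (s : Option κ × Option κ) :
    frm b f g h x s = ∑ t, b.B.sd x s t * ∑ a, f a x * b.F.D t.1 (g a) x * b.F.D t.2 (h a) x :=
  xp2 x _ s

theorem p2_p2 (hb : b.OK) (x : X.M) (η : F2 κ) : b.p2 x (b.p2 x η) = b.p2 x η := by
  ext s
  rw [xp2]
  simp only [xp2 x η, Finset.mul_sum _ _ (b.B.sd x s _), ← mul_assoc]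
  rw [Finset.sum_comm]
  simp only [← Finset.sum_mul, Wz78.sd_sd hb.B x s]

theorem xf_all (hb : b.OK) {fo : X.M → F2 κ} (hf : fo ∈ Sec X.I b.p2) :
    ∃ (n : ℕ) (f g h : Fin n → X.M → ℝ), (∀ a, f a ∈ Sec X.I (triv X.M ℝ) ∧
      g a ∈ Sec X.I (triv X.M ℝ) ∧ h a ∈ Sec X.I (triv X.M ℝ)) ∧ frm b f g h = fo := by
  obtain ⟨J, _, y, R, hy, hR, hs⟩ := xf_glob b.F hf.2.1.isCompact
  let e := (Fintype.equivFin (J × J)).symm
  refine ⟨_, fun a x => ∑ r, fo x r * R (e a).1 r.1 x * R (e a).2 r.2 x, fun a => y (e a).1,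
    fun a => y (e a).2, fun a => ⟨⟨contMDiff_finsetSum fun r _ =>
      ((((PiLp.proj 2 (fun _ => ℝ) r : F2 κ →L[ℝ] ℝ).contMDiff.comp hf.1).mul (hR _ _)).mul
        (hR _ _)), hf.2.1.mono fun x hx h => hx (by simp [h]), fun _ => rfl⟩, hy _, hy _⟩, ?_⟩
  ext x s
  by_cases hx : x ∈ tsupport fo
  · have h := xf_alg hb.B x (R := fun i a => R i a x) (D := fun i a => b.F.D a (y i) x)
      (fun a c => hb.G.P ▸ hs x hx a c) (fo x) s
    rw [← xp2, hf.2.2 x] at h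
    rw [frm_apply, ← h]
    exact Finset.sum_congr rfl fun t _ => congrArg _ (e.sum_comp fun i =>
      (∑ r, fo x r * R i.1 r.1 x * R i.2 r.2 x) * b.F.D t.1 (y i.1) x * b.F.D t.2 (y i.2) x)
  · simp [frm_apply, image_eq_zero_of_notMem_tsupport hx]

theorem xf_nat {φ : OpenPartialHomeomorph X.M X'.M} {U : X.M → Option κ → Option κ → ℝ}
    {u : X.M → En ν} {α : Option κ → X.M → ℝ} (hb : b.OK) (hb' : b'.OK) (i : b.Iso b' φ U u α)
    (f g h : Fin n → X'.M → ℝ) (hs : ∀ a, Sm X'.I (g a) ∧ Sm X'.I (h a)) {x : X.M}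
    (hx : x ∈ φ.source) (s : Option κ × Option κ) : frm b' f g h (φ x) s =
      ∑ a, ∑ a', U x s.1 a * U x s.2 a' *
        frm b (fun a => f a ∘ φ) (fun a => g a ∘ φ) (fun a => h a ∘ φ) x (a, a') := by
  obtain ⟨v, q⟩ := i.g
  have L := Eqv71.lg_of_geq q hb.B hb.G hb'.B hb'.G φ.open_source Subset.rfl
  have D : ∀ {k : X'.M → ℝ}, Sm X'.I k → ∀ j, b'.F.D j k (φ x) =
      ∑ a, U x j a * b.F.D a (k ∘ φ) x := fun hk j =>
    L.rot.D' hx j (hk.mdifferentiableAt (by simp))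
  set T : Option κ × Option κ → ℝ := fun r =>
    ∑ a, f a (φ x) * b.F.D r.1 (g a ∘ φ) x * b.F.D r.2 (h a ∘ φ) x with hT
  have e : ∀ t : Option κ × Option κ, ∑ a, f a (φ x) * b'.F.D t.1 (g a) (φ x) *
      b'.F.D t.2 (h a) (φ x) = ∑ r, Eqv71.sq2 (U x) t r * T r := fun t => by
    simp only [D (hs _).1, D (hs _).2, hT, Eqv71.sq2, Finset.sum_mul, Finset.mul_sum]
    rw [Finset.sum_comm (γ := Option κ × Option κ)]
    refine Finset.sum_congr rfl fun a _ => ?_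
    rw [Fintype.sum_prod_type_right]
    exact Finset.sum_congr rfl fun _ _ => Finset.sum_congr rfl fun _ _ => by ring
  rw [← Fintype.sum_prod_type' fun a a' => U x s.1 a * U x s.2 a' *
    frm b (fun a => f a ∘ φ) (fun a => g a ∘ φ) (fun a => h a ∘ φ) x (a, a')]
  simp only [frm_apply, e]
  change _ = ∑ t, Eqv71.sq2 (U x) s t * ∑ r, b.B.sd x t r * T r
  simp only [Finset.mul_sum _ _ (b'.B.sd _ _ _), Finset.mul_sum _ _ (Eqv71.sq2 _ s _), ← mul_assoc]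
  rw [Finset.sum_comm, Finset.sum_comm (f := fun t r => Eqv71.sq2 (U x) s t * b.B.sd x t r * T r)]
  simp only [← Finset.sum_mul, (L.be x hx).sd hb.B hb'.B]

variable {g : Gc κ lam ν} (hg : g.OK)
include hg

theorem xf_fam {F : Fin 3 → Fin n → Sc g} (hF : ∀ i a, (F i a).OK) :
    (∀ t, frm (g.P t).bg (fun a => F 0 a t) (fun a => F 1 a t) (fun a => F 2 a t) ∈
      Sec g.X.I (g.P t).bg.p2) ∧ SB g.s.bg.F.toPre univ
        (fun t => frm (g.P t).bg (fun a => F 0 a t) (fun a => F 1 a t) fun a => F 2 a t) := by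
  have h := hg.fam
  have hQ := hg.Q
  have ht : ∀ t, t ∈ g.𝓕.Q := fun t => hQ ▸ mem_univ t
  have sF : ∀ i a, SB g.s.bg.F.toPre univ (F i a) := fun i a =>
    let ⟨r, hr⟩ := (hF i a).cf; sb_supp (hF i a).sm (h.site.cpt r) hr
  have sD : ∀ i a j, SB g.s.bg.F.toPre univ fun t => (g.P t).bg.F.D j (F i a t) := fun i a j =>
    SB.D' (G := fun t => (g.P t).bg.F.toPre) (A := fun a c t x => g.𝓕.S t x a c)
      (fun t _ => h.mix t (ht t)) (fun a c => hQ ▸ h.sS a c) (sF i a) j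
  obtain ⟨C, hC⟩ := h.site.bg.tame
  have S : SB g.s.bg.F.toPre univ
      (fun t => frm (g.P t).bg (fun a => F 0 a t) (fun a => F 1 a t) fun a => F 2 a t) :=
    sb_fm fun s => (SB.sum fun r => (SB.fixed (cb_sd
      (fun a c => h.site.bg.G.P ▸ ⟨C, hC.P a c⟩) h.site.bg.co s r)).mul
        (SB.sum fun a => ((sF 0 a).mul (sD 1 a r.1)).mul (sD 2 a r.2))).congr fun t _ =>
      funext fun x => by rw [frm_apply, show (g.P t).bg.B = g.s.bg.B from h.B t (ht t)]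
  choose r hr using fun a => (hF 0 a).cf
  refine ⟨fun t => ⟨Cb.sm (S.cb t trivial), HasCompactSupport.intro
    (isCompact_iUnion fun a => h.site.cpt (r a)) fun x hx => ?_,
    fun x => p2_p2 (h.ok t (ht t)).1.bg x _⟩, S⟩
  ext s
  simp [frm_apply, fun a => hr a t x fun h => hx (mem_iUnion.2 ⟨a, h⟩)]

theorem xf_bds {fo : Tk g.k → g.X.M → F2 κ} (hf : SB g.s.bg.F.toPre univ fo) {r : ℝ}
    (hr : ∀ t, ∀ x ∉ g.s.core r, fo t x = 0) {D : Set (Tk g.k)} (hD : IsCompact D) : ∃ s, ∀ t ∈ D,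
      (g.P t).bg.F.CB 6 (fo t) s ∧ (g.P t).bg.F.nrm 0 (fo t) ≤ s := by
  have h := hg.fam
  have hQ := hg.Q
  have ht : ∀ t, t ∈ g.𝓕.Q := fun t => hQ ▸ mem_univ t
  obtain ⟨d, hd, hμ⟩ := h.dens
  exact xf_bd (G := fun t => (g.P t).bg.F.toPre) (A := fun a c t x => g.𝓕.S t x a c)
    (fun t => h.mix t (ht t)) (fun a c => hQ ▸ h.sS a c) (hQ ▸ hd) (fun t => (hμ t (ht t)).2) hf
    (h.site.cpt r) hr 6 hD

omit hg in
/-- **LV-EXT-F** -/
theorem extF : ExtFStmt κ lam ν :=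
  ⟨fun _ _ _ hb _ hf => xf_all hb hf,
    fun _ _ _ _ _ _ _ _ _ _ hb hb' i _ f g h hs _ hx s => xf_nat hb hb' i f g h hs hx s,
    fun _ hg _ _ hF => xf_fam hg hF, fun _ hg _ hf ⟨_, hr⟩ _ hD => xf_bds hg hf hr hD⟩

end Crest.Agent.X212.Cyc79
end
end

-- ▼ part X212/Ext33/Eta
section

/-!
# Row 212, LV-EXT-B (helper33): transport of test spinors, forms at faces
-/

set_option autoImplicit false
set_option linter.unusedSectionVars false
noncomputable section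
open scoped Manifold ContDiff Topology InnerProductSpace
open MeasureTheory Set Function Filter

namespace Crest.Agent.X212.Ext33
open An Cyf70 Sw Flo2 Eqv71 Hp13.Ext
open M (Mf)

variable {κ lam ν : Type} [Fintype κ] [Fintype lam] [Fintype ν] [DecidableEq ν]
  {X X' : Mf 4} {nc nc' n : ℕ} {b : Bg X.I X.M κ lam ν nc} {b' : Bg X'.I X'.M κ lam ν nc'}
  {φ : OpenPartialHomeomorph X.M X'.M} {U : X.M → Option κ → Option κ → ℝ} {u : X.M → En ν}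
  {α : Option κ → X.M → ℝ} {x : X.M}

section iso
variable (hb : b.OK) (hb' : b'.OK) (i : b.Iso b' φ U u α)
include hb hb' i

theorem iso_vol (hx : x ∈ φ.source) (a : Eu ν) : b'.vol (φ x) (u x a) = u x (b.vol x a) := by
  obtain ⟨v, q⟩ := i.g
  have g : BE b.B x b'.B (φ x) (U x) (v x) :=
    ⟨q.UU x hx, q.UU' x hx, fun _ _ _ _ => by rw [q.o x hx]; simp only [rot4, smul_eq_mul, mul_assoc],
      q.vv x hx, q.vv' x hx, q.il x hx⟩
  have e : ∀ j w, b'.m.ρ j (φ x) (u x w) = ∑ a, U x j a • u x (b.m.ρ a x w) := fun j w => by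
    simpa using congrArg (fun T : En ν => T w) (i.ρ x hx j)
  have h1 : ∀ b₁ b₂ b₃ b₄, b'.m.ρ b₁ (φ x) (b'.m.ρ b₂ (φ x) (b'.m.ρ b₃ (φ x) (b'.m.ρ b₄ (φ x) (u x a))))
      = rot4 (U x) (fun a₁ a₂ a₃ a₄ =>
        u x (b.m.ρ a₁ x (b.m.ρ a₂ x (b.m.ρ a₃ x (b.m.ρ a₄ x a))))) b₁ b₂ b₃ b₄ := by
    intro b₁ b₂ b₃ b₄
    have k : ∀ c d w, b'.m.ρ c (φ x) (b'.m.ρ d (φ x) (u x w))
        = u x (∑ a₁, ∑ a₂, (U x c a₁ * U x d a₂) • b.m.ρ a₁ x (b.m.ρ a₂ x w)) := fun c d w => by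
      simp only [e, map_sum, map_smul, Finset.smul_sum, smul_smul]
      rw [Finset.sum_comm]
      simp only [mul_comm]
    rw [k, k]
    simp only [rot4, map_sum, map_smul, Finset.smul_sum, smul_smul, mul_assoc]
  simp only [Bg.vol, smul_apply, _root_.sum_apply, mul_apply_eq_comp, h1, map_smul, map_sum]
  rw [sum_rot4]
  simp only [← (g.symm hb.B hb'.B).o]

theorem iso_pp (hx : x ∈ φ.source) (a : Eu ν) : b'.pp (φ x) (u x a) = u x (b.pp x a) := by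
  have : b'.m.p (φ x) (u x a) = u x (b.m.p x a) := by rw [← i.uu x hx, ← i.uu' x hx]; rfl
  simp only [Bg.pp, smul_apply, sub_apply, iso_vol hb hb' i hx, map_smul, map_sub, this]

end iso

/-- the phase -/
def ph (b : Bg X.I X.M κ lam ν nc) (α : Option κ → X.M → ℝ) (j : Fin nc) (y : R4) : ℂ :=
  Kop92.K (leb R4) (b.ct j).ρ (b.ta j ⟨α, 0⟩) y * Complex.I

/-- the image of a test spinor -/
def tp (b : Bg X.I X.M κ lam ν nc) (u : X.M → En ν) (α : Option κ → X.M → ℝ) (j : Fin nc)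
    (η : R4 → Eu ν) (y : R4) : Eu ν := u ((b.ct j).Ξ y) (cs b.m.J (Complex.exp (-ph b α j y)) (η y))

theorem sm_cs {J : En ν} {z : R4 → ℂ} {η : R4 → Eu ν} (hz : ContDiff ℝ ∞ z) (h : ContDiff ℝ ∞ η) :
    ContDiff ℝ ∞ fun y => cs J (Complex.exp (z y)) (η y) := by
  simpa only [comp_apply, Pb50.cB_apply] using ((Pb50.cB J).contDiff.comp hz.cexp).clm_apply h

section tp
variable (hb : b.OK) (hb' : b'.OK) (i : b.Iso b' φ U u α) (hs : φ.source = univ) (j : Fin nc)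
include hb i hs

theorem sm_u : ContDiff ℝ ∞ fun y => u ((b.ct j).Ξ y) :=
  ((contMDiffOn_univ.1 (hs ▸ i.su)).comp (hb.ct j).sm).contDiff

theorem sm_ph : ContDiff ℝ ∞ (ph b α j) := by
  have C := hb.ct j
  obtain ⟨R, hR⟩ := Kop92.exists_sp C.cρ
  refine (Complex.ofRealCLM.contDiff.comp (Kop92.contDiff_K C.sρ hR ?_)).mul contDiff_const
  exact ((innerSL ℝ).contDiff.comp (contDiff_euclidean.2 fun k =>
    ((contMDiffOn_univ.1 (hs ▸ i.sα k)).comp C.sm).contDiff)).clm_comp C.sθ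

include hb'
variable {Ξ : R4 → X'.M} (hΞ : ∀ y, Ξ y = φ ((b.ct j).Ξ y))
include hΞ

theorem tst_tp {η : R4 → Eu ν} (h : b.Tst (b.ct j).Ξ η) : b'.Tst Ξ (tp b u α j η) :=
  ⟨(sm_u hb i hs j).clm_apply (sm_cs (sm_ph hb i hs j).neg h.sm),
    h.cpt.mono fun y hy e => hy (by simp [tp, cs, e]), fun y => by
      rw [hΞ, tp, iso_pp hb hb' i (hs ▸ trivial), Pb50.cs_comm (Pb50.Jpp hb _), h.pos]⟩

theorem tp_sur {η : R4 → Eu ν} (h : b'.Tst Ξ η) : ∃ η', b.Tst (b.ct j).Ξ η' ∧ tp b u α j η' = η := by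
  have e : ∀ y, u ((b.ct j).Ξ y) (trn (u ((b.ct j).Ξ y)) (η y)) = η y := fun y => by
    rw [← h.pos y, hΞ]
    exact congrArg (fun T : En ν => T _)
      ((congrArg (· * _) (i.uu' _ (hs ▸ trivial))).trans (Pb50.p_pp hb' _))
  refine ⟨fun y => cs b.m.J (Complex.exp (ph b α j y)) (trn (u ((b.ct j).Ξ y)) (η y)),
    ⟨sm_cs (sm_ph hb i hs j) ((trnL.contDiff.comp (sm_u hb i hs j)).clm_apply h.sm),
      h.cpt.mono fun y hy e => hy (by simp [cs, e]), fun y => ?_⟩, funext fun y => ?_⟩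
  · have := congrArg (trn (u ((b.ct j).Ξ y))) (iso_pp hb hb' i (x := (b.ct j).Ξ y) (hs ▸ trivial)
      (trn (u ((b.ct j).Ξ y)) (η y)))
    rw [e, ← hΞ, h.pos] at this
    rw [Pb50.cs_comm (Pb50.Jpp hb _)]
    exact congrArg _ ((congrArg (fun T : En ν => T _) ((congrArg (· * _) (i.uu _ (hs ▸ trivial))).trans
      (Pb50.p_pp hb _))).symm.trans this.symm)
  · rw [tp, cs_mul hb.m.Jsq, ← Complex.exp_add, neg_add_cancel, Complex.exp_zero, cs_one, e]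

end tp

theorem frm_congr {b' : Bg X.I X.M κ lam ν nc'} (hB : b.B = b'.B) (hG : b.G = b'.G)
    (f g h : Fin n → X.M → ℝ) : frm b f g h = frm b' f g h := by
  ext x s
  simp only [Cyc79.frm_apply, Bg.F, hB, hG]

theorem tst_congr {b' : Bg X.I X.M κ lam ν nc'} (hB : b.B = b'.B) (hm : b.m = b'.m) {Ξ : R4 → X.M}
    {η : R4 → Eu ν} (h : b.Tst Ξ η) : b'.Tst Ξ η :=
  ⟨h.sm, h.cpt, fun y => by simpa only [Bg.pp, Bg.vol, hB, hm] using h.pos y⟩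

theorem cast_pz {N : Type} {e : N → En3 κ lam ν} (h : nc = nc') (P : Pz X nc e) (hP : P.bg.OK) :
    (h ▸ P : Pz X nc' e).bg.OK ∧ (h ▸ P : Pz X nc' e).bg.B = P.bg.B ∧
      (h ▸ P : Pz X nc' e).bg.G = P.bg.G ∧ (h ▸ P : Pz X nc' e).bg.m = P.bg.m ∧
      ∀ j, (h ▸ P : Pz X nc' e).bg.ct j = P.bg.ct (j.cast h.symm) := by
  subst h; exact ⟨hP, rfl, rfl, rfl, fun _ => rfl⟩

variable {g g' : Gc κ lam ν}

theorem bgok (hg : g.OK) (t : Tk g.k) : (g.P t).bg.OK := (hg.fam.ok t (hg.Q ▸ trivial)).bg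

/-- spinors in the boxes -/
abbrev Sp (g : Gc κ lam ν) : Type := Fin g.nc → R4 → Eu ν

/-- test spinors -/
def Ts (g : Gc κ lam ν) (η : Sp g) : Prop := ∀ j t, (g.P t).bg.Tst ((g.P t).bg.ct j).Ξ (η j)

theorem ts_of (hg : g.OK) {j : Fin g.nc} {η : R4 → Eu ν} {t : Tk g.k}
    (h : (g.P t).bg.Tst ((g.P t).bg.ct j).Ξ η) (t' : Tk g.k) :
    (g.P t').bg.Tst ((g.P t').bg.ct j).Ξ η := by
  have q : ∀ t, t ∈ g.𝓕.Q := fun t => hg.Q ▸ trivial
  rw [show ((g.P t').bg.ct j).Ξ = _ from (hg.fam.ct t' (q _) t (q _) j).1]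
  exact tst_congr ((hg.fam.B t (q _)).trans (hg.fam.B t' (q _)).symm)
    ((hg.fam.m t (q _)).trans (hg.fam.m t' (q _)).symm) h

/-- a transport of test spinors -/
structure Tp (g' g : Gc κ lam ν) (T : Sp g' → Sp g) : Prop where
  ts : ∀ η, Ts g' η → Ts g (T η)
  z : T 0 = 0
  sur : ∀ η, Ts g η → ∃ η', Ts g' η' ∧ T η' = η

/-- the form of a system of functions -/
def fm (g : Gc κ lam ν) (F : Fin 3 → Fin n → Sc g) (t : Tk g.k) : g.X.M → F2 κ :=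
  frm (g.P t).bg (fun a => F 0 a t) (fun a => F 1 a t) fun a => F 2 a t

/-- the forms come from corresponding functions -/
def FoN (D : Set (Tk g.k)) (ι : Fin g'.k → Fin g.k) (φ : g'.X.M → g.X.M)
    (fo : Tk g.k → g.X.M → F2 κ) (fo' : Tk g'.k → g'.X.M → F2 κ) : Prop :=
  ∃ (n : ℕ) (F : Fin 3 → Fin n → Sc g) (F' : Fin 3 → Fin n → Sc g'), (∀ i a, (F i a).OK) ∧
    fo = fm g F ∧ fo' = fm g' F' ∧ ∀ i a, ∀ t ∈ D, ∀ y, F i a t (φ y) = F' i a (t ∘ ι) y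

/-- the transport at a face -/
def FT (D : Set (Tk g.k)) (ι : Fin g'.k → Fin g.k) (φ : OpenPartialHomeomorph g'.X.M g.X.M) (m : ℤ)
    (T : Sp g' → Sp g) : Prop := Tp g' g T ∧ ∀ (W : Type) (τ : Tm g W) (τ' : Tm g' W),
  (∀ w, FoN D ι φ (τ.fo w) (τ'.fo w)) → (∀ w, ∀ t ∈ D, τ.η w t = T (τ'.η w (t ∘ ι))) →
    ∀ m', g'.gau g'.pin (-m) = g'.gau g'.pin (-m') → g.FcT g' D ι φ m' τ τ'

theorem fc_tp {D ι φ m} (H : g.Fc g' D ι φ m) (hg : g.OK) (hg' : g'.OK) {t₀ : Tk g.k} (h₀ : t₀ ∈ D)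
    (hD : g.nc ≠ 0 → ∀ t ∈ D, t = t₀) : ∃ T, FT D ι φ m T := by
  obtain ⟨h, r, a1, -, a2, a3, a4, k⟩ := H.iso
  choose! γ U u α k1 k2 using k
  have c := fun t => cast_pz h (g.P t) (bgok hg t)
  have B := k2 t₀ h₀
  have hΞ : ∀ j : Fin g.nc, ∀ y, ((g.P t₀).bg.ct j).Ξ y = φ (((g'.P (t₀ ∘ ι)).bg.ct (j.cast h)).Ξ y) :=
    fun j y => by have := B.Ξ (j.cast h) y; rwa [(c t₀).2.2.2.2] at this
  refine ⟨fun η j => tp (g'.P (t₀ ∘ ι)).bg (u t₀) (α t₀) (j.cast h) (η (j.cast h)),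
    ⟨fun η e j => ts_of hg (tst_congr (c t₀).2.1 (c t₀).2.2.2.1
      (tst_tp (bgok hg' _) (c t₀).1 B.iso B.src _ (hΞ j) (e _ _))), by ext; simp [tp, cs],
      fun η e => ?_⟩, fun W τ τ' e1 e2 m' e3 => ⟨h, r, a1, a2, a3, a4, fun t ht =>
        ⟨γ t, U t, u t, α t, e3 ▸ k1 t ht, k2 t ht, fun w => ⟨fun x s => ?_, fun j y => ?_⟩⟩⟩⟩
  · choose η' e1 e2 using fun j : Fin g'.nc => tp_sur (bgok hg' _) (c t₀).1 B.iso B.src j
      (hΞ (j.cast h.symm)) (tst_congr (c t₀).2.1.symm (c t₀).2.2.2.1.symm (e _ t₀))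
    exact ⟨η', fun j => ts_of hg' (e1 j), funext fun j => e2 (j.cast h)⟩
  · obtain ⟨n, F, F', o, b1, b2, b3⟩ := e1 w
    rw [b1, b2, fm, ← frm_congr (c t).2.1 (c t).2.2.1, Cyc79.xf_nat (bgok hg' _) (c t).1 (k2 t ht).iso
      _ _ _ (fun a => ⟨(o 1 a).sm.sm trivial, (o 2 a).sm.sm trivial⟩) ((k2 t ht).src ▸ trivial)]
    simp only [fm, comp_def, b3 _ _ t ht]
  · obtain rfl := hD (h ▸ j.pos.ne') t ht
    rw [e2 w t ht]
    rfl

end Crest.Agent.X212.Ext33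
end
end

-- ▼ part X212/Ext33/Wall
section

/-!
# Row 212, LV-EXT-B (helper33): forms and test spinors at walls
-/

set_option autoImplicit false
set_option linter.unusedSectionVars false
noncomputable section
open scoped Manifold ContDiff Topology InnerProductSpace
open MeasureTheory Set Function Filter

namespace Crest.Agent.X212.Ext33
open An Cyf70 Sw Flo2 Hp13.Ext Sob92
open M (Mf pm)
open Nd18 (Jv)

section psh
variable {A B C V : Type} [TopologicalSpace A] [TopologicalSpace B] [TopologicalSpace C]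
  [AddCommMonoid V] {l : OpenPartialHomeomorph A B} {r : OpenPartialHomeomorph C B} {K₁ : Set A}
  {K₂ : Set C} {u₁ : A → V} {u₂ : C → V}

theorem psh_ap {x : A} (h : x ∈ l.source) : psh l u₁ (l x) = u₁ x := by
  simp [psh, indicator_of_mem (l.map_source h), l.left_inv h]

theorem psh_z (h0 : ∀ x ∉ K₁, u₁ x = 0) {y : B} (hy : y ∉ l '' K₁) : psh l u₁ y = 0 :=
  indicator_apply_eq_zero.2 fun k => h0 _ fun j => hy ⟨_, j, l.right_inv k⟩

/-- compact sets with disjoint images -/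
structure Sep (l : OpenPartialHomeomorph A B) (r : OpenPartialHomeomorph C B) (K₁ : Set A)
    (K₂ : Set C) : Prop where
  c₁ : IsCompact K₁
  c₂ : IsCompact K₂
  s₁ : K₁ ⊆ l.source
  s₂ : K₂ ⊆ r.source
  dj : Disjoint (l '' K₁) (r '' K₂)

theorem Sep.symm (h : Sep l r K₁ K₂) : Sep r l K₂ K₁ := ⟨h.c₂, h.c₁, h.s₂, h.s₁, h.dj.symm⟩

theorem Sep.ev [T2Space B] (h : Sep l r K₁ K₂) (h0 : ∀ x ∉ K₂, u₂ x = 0) {y : A} (hy : y ∈ K₁) :
    (psh l u₁ + psh r u₂) ∘ l =ᶠ[𝓝 y] u₁ := by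
  filter_upwards [l.open_source.mem_nhds (h.s₁ hy), (l.continuousAt (h.s₁ hy)).eventually
    ((h.c₂.image_of_continuousOn (r.continuousOn.mono h.s₂)).isClosed.isOpen_compl.mem_nhds
      (disjoint_left.1 h.dj (mem_image_of_mem _ hy)))] with z a b
  rw [comp_apply, Pi.add_apply, psh_ap a, psh_z h0 b, add_zero]

end psh

theorem jv_mono {p q : Option ℝ} {d d' : ℝ} (h : d ≤ d') :
    Jv (p.map (· + d')) (q.map (· - d')) ⊆ Jv (p.map (· + d)) (q.map (· - d)) := fun s k => by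
  simp only [Jv, Option.mem_def, Option.map_eq_some_iff, mem_ofPred, forall_exists_index, and_imp,
    forall_apply_eq_imp_iff₂] at k ⊢
  exact ⟨fun a e => by linarith [k.1 a e], fun a e => by linarith [k.2 a e]⟩

variable {κ lam ν : Type} [Fintype κ] [Fintype lam] [Fintype ν] [DecidableEq ν]

section frm
variable {X X₁ X₂ : Mf 4} {nc nc₁ nc₂ n : ℕ} {b : Bg X.I X.M κ lam ν nc} {b₁ : Bg X₁.I X₁.M κ lam ν nc₁}
  {b₂ : Bg X₂.I X₂.M κ lam ν nc₂} {l : OpenPartialHomeomorph X₁.M X.M}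
  {r : OpenPartialHomeomorph X₂.M X.M} {K₁ : Set X₁.M} {K₂ : Set X₂.M}
  {F : Fin 3 → Fin n → X.M → ℝ} {F₁ : Fin 3 → Fin n → X₁.M → ℝ} {F₂ : Fin 3 → Fin n → X₂.M → ℝ}

theorem frm_zero {f g h : Fin n → X.M → ℝ} {x : X.M} (e : ∀ a, f a x = 0) : frm b f g h x = 0 := by
  ext s; simp [Cyc79.frm_apply, e]

theorem frm_lit (L : b₁.Lit b l) {y : X₁.M} (hy : y ∈ l.source) (sm : ∀ i a, Sm X.I (F i a))
    (e : ∀ i a, F i a ∘ l =ᶠ[𝓝 y] F₁ i a) :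
    frm b (F 0) (F 1) (F 2) (l y) = frm b₁ (F₁ 0) (F₁ 1) (F₁ 2) y := by
  have D : ∀ i a j, b.F.D j (F i a) (l y) = b₁.F.D j (F₁ i a) y := fun i a j =>
    (iso_D_comp L.iso hy ((sm i a).mdifferentiableAt (by simp)) j).symm.trans (dv_congr (e i a))
  ext s
  simp only [Cyc79.frm_apply, D, Base.sd, Base.a2, Base.st, L.P _ _ y hy, L.o _ _ _ _ y hy,
    fun a => show F 0 a (l y) = _ from (e 0 a).self_of_nhds]

theorem frm_split (L₁ : b₁.Lit b l) (L₂ : b₂.Lit b r) (S : Sep l r K₁ K₂) (sm : ∀ i a, Sm X.I (F i a))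
    (z₁ : ∀ i a, ∀ x ∉ K₁, F₁ i a x = 0) (z₂ : ∀ i a, ∀ x ∉ K₂, F₂ i a x = 0)
    (e : ∀ i a, F i a = psh l (F₁ i a) + psh r (F₂ i a)) : frm b (F 0) (F 1) (F 2) =
      psh l (frm b₁ (F₁ 0) (F₁ 1) (F₁ 2)) + psh r (frm b₂ (F₂ 0) (F₂ 1) (F₂ 2)) := by
  have y₁ : ∀ x ∉ K₁, frm b₁ (F₁ 0) (F₁ 1) (F₁ 2) x = 0 := fun x k => frm_zero fun a => z₁ 0 a x k
  have y₂ : ∀ x ∉ K₂, frm b₂ (F₂ 0) (F₂ 1) (F₂ 2) x = 0 := fun x k => frm_zero fun a => z₂ 0 a x k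
  funext x
  by_cases k₁ : x ∈ l '' K₁
  · obtain ⟨y, hy, rfl⟩ := k₁
    exact (frm_lit L₁ (S.s₁ hy) sm fun i a => e i a ▸ S.ev (z₂ i a) hy).trans
      (S.ev y₂ hy).self_of_nhds.symm
  by_cases k₂ : x ∈ r '' K₂
  · obtain ⟨y, hy, rfl⟩ := k₂
    rw [add_comm]
    exact (frm_lit L₂ (S.s₂ hy) sm fun i a => (e i a).trans (add_comm _ _) ▸ S.symm.ev (z₁ i a) hy).trans
      (S.symm.ev y₁ hy).self_of_nhds.symm
  rw [Pi.add_apply, psh_z y₁ k₁, psh_z y₂ k₂, add_zero]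
  exact frm_zero fun a => by rw [e, Pi.add_apply, psh_z (z₁ 0 a) k₁, psh_z (z₂ 0 a) k₂, add_zero]

theorem bd_psh (L : b₁.Lit b l) (hK : IsCompact K₁) (hs : K₁ ⊆ l.source) {u : X₁.M → F2 κ}
    (hu : Sm X₁.I u) (h0 : ∀ x ∉ K₁, u x = 0) {s : ℝ} (h : b₁.F.CB 6 u s ∧ b₁.F.nrm 0 u ≤ s) :
    Sm X.I (psh l u) ∧ HasCompactSupport (psh l u) ∧ b.F.CB 6 (psh l u) |s| ∧
      b.F.nrm 0 (psh l u) ≤ |s| := by
  have c := HasCompactSupport.intro hK h0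
  have t : tsupport u ⊆ l.symm.target :=
    (closure_minimal (s := support u) (fun x hx => by_contra fun k => hx (h0 x k)) hK.isClosed).trans hs
  have a := Adm.of_isCompact c t
  rw [show psh l u = pull l.symm u from rfl]
  exact ⟨sm_pull (iso_symm L.iso) hu a, hcs_pull c t, CB_pull (iso_symm L.iso) 6 hu a h.1,
    (nrm_pull (iso_symm L.iso) 0 hu a).trans_le (h.2.trans (le_abs_self s))⟩

end frm

variable {g g₁ g₂ g₂' : Gc κ lam ν} {c : Fin g.k} {i : g.N} {cap : Bool} {ι₁ : Fin g₁.k → Fin g.k}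
  {ι₂ : Fin g₂.k → Fin g.k} {l : ℝ → OpenPartialHomeomorph g₁.X.M g.X.M}
  {r : ℝ → OpenPartialHomeomorph g₂.X.M g.X.M} {n : ℕ}

theorem wl_lit (H : g.Wl g₁ g₂ c i cap ι₁ ι₂ l r) {ι : Fin g₂'.k → Fin g₂.k}
    {φ : OpenPartialHomeomorph g₂'.X.M g₂.X.M}
    (h : ∃ h : g₂ = g₂', (∀ j, (ι j).1 = j.1) ∧ φ = h ▸ OpenPartialHomeomorph.refl _) :
    g.Wl g₁ g₂' c i cap ι₁ (ι₂ ∘ ι) l fun v => φ.trans (r v) := by
  obtain ⟨rfl, a, rfl⟩ := h
  obtain rfl : ι = id := funext fun j => Fin.ext (a j)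
  simpa using H

theorem cpt_all (hg : g.OK) {F : Fin 3 → Fin n → Sc g} (o : ∀ i a, (F i a).OK) :
    ∃ K, IsCompact K ∧ ∀ i a t, ∀ x ∉ K, F i a t x = 0 := by
  choose K a b using fun i a => ok_cpt hg (o i a)
  exact ⟨_, isCompact_iUnion fun i => isCompact_iUnion (a i), fun i a t x k => b i a t x fun j =>
    k (mem_iUnion.2 ⟨i, mem_iUnion.2 ⟨a, j⟩⟩)⟩

theorem short (hg : g.OK) (hi : g.wl c = some i) {t : Tk g.k} {ρ : ℝ} (h3 : 3 ≤ ρ) (ht : t c ≤ ρ) :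
    ∀ K ∈ (g.P t).nk i, ∀ τ, τ ∉ K.deep ρ := fun K e τ h => by
  obtain ⟨h1, -, h2⟩ := hg.wl c i hi
  obtain ⟨a, b, p, q⟩ : ∃ a b, K.p = some a ∧ K.q = some b := by
    obtain k | ⟨K', e', a, b, p, q, -⟩ := hg.fam.nk t (hg.Q ▸ trivial) i h1
    · obtain ⟨a, p, q⟩ := k.self_of_nhds K e
      exact ⟨_, _, p, q⟩
    · obtain rfl : K = K' := Option.some_injective _ (Eq.symm e |>.trans e')
      exact ⟨_, _, p, q⟩
  have k : (g.P t).len i = b - a := by rw [Pz.len, show (g.P t).nk i = some K from e]; simp [p, q]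
  have : a + ρ < τ ∧ τ < b - ρ := by simpa [Nk.deep, Jv, p, q] using h
  rcases le_total (t c) 3 with j | j
  · linarith [(h2 t).2.1 j]
  · linarith [(h2 t).2.2 j]

/-- the bounds of `Tm.OK` -/
def Bd (g : Gc κ lam ν) (fo : Tk g.k → g.X.M → F2 κ) (s : ℝ) (t : Tk g.k) : Prop :=
  (g.P t).bg.F.CB 6 (fo t) s ∧ (g.P t).bg.F.nrm 0 (fo t) ≤ s

variable (c i cap ι₁ ι₂ l r) in
/-- the transport at a wall -/
def WT (T : Sp g₁ → Sp g₂ → Sp g) : Prop := (∀ η₁ η₂, Ts g₁ η₁ → Ts g₂ η₂ → Ts g (T η₁ η₂)) ∧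
  T 0 0 = 0 ∧ ∀ (W : Type) (τ : Tm g W) (τ₁ : Tm g₁ W) (τ₂ : Tm g₂ W), (∀ w, ∃ T', ∀ t, T' ≤ t c →
    τ.fo w t = psh (l (t c)) (τ₁.fo w (t ∘ ι₁)) + psh (r (t c)) (τ₂.fo w (t ∘ ι₂)) ∧
      τ.η w t = T (τ₁.η w (t ∘ ι₁)) (τ₂.η w (t ∘ ι₂))) → g.WlT g₁ g₂ c i cap ι₁ ι₂ l r τ τ₁ τ₂

theorem wl_dim (H : g.Wl g₁ g₂ c i cap ι₁ ι₂ l r) : g₁.k + g₂.k + 1 = g.k ∧ g₁.nc + g₂.nc = g.nc := by
  obtain ⟨-, -, -, -, -, -, e, -⟩ := H.spl
  exact ⟨by simpa using Fintype.card_of_bijective H.bij, by simpa using Fintype.card_congr e⟩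

variable (H : g.Wl g₁ g₂ c i cap ι₁ ι₂ l r) (hg : g.OK) (h₁ : g₁.OK) (h₂ : g₂.OK) (hi : g.wl c = some i)
include H hg h₁ h₂ hi

theorem sep {K₁ : Set g₁.X.M} {K₂ : Set g₂.X.M} (c₁ : IsCompact K₁) (c₂ : IsCompact K₂) :
    ∃ ρ ≥ (3 : ℝ), ∀ t : Tk g.k, ρ ≤ t c → (g₁.P (t ∘ ι₁)).bg.Lit (g.P t).bg (l (t c)) ∧
      (g₂.P (t ∘ ι₂)).bg.Lit (g.P t).bg (r (t c)) ∧ Sep (l (t c)) (r (t c)) K₁ K₂ ∧
      ∀ K ∈ (g.P t).nk i, ∀ z ∈ univ ×ˢ K.deep ρ, K.ψ z ∉ l (t c) '' K₁ ∧ K.ψ z ∉ r (t c) '' K₂ := by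
  obtain ⟨j₁, a1, j₂, a2, r₁, r₂, e, -, -, -, -, -, -, -, -, -, -, ⟨δ, W⟩, ε, hε, f1, f2⟩ := H.spl
  obtain ⟨x₀⟩ := hg.fam.site.con.toNonempty
  obtain ⟨S⟩ := sd_of hg h₁ hi (δ := fun v => (δ v).1) (fun t ht => (W t ht).l') ((h₁.out _).2 (by
    cases cap
    exacts [Or.inl a1, Or.inr a1])) hε f1 x₀
  obtain ⟨S'⟩ := sd_of hg h₂ hi (δ := fun v => (δ v).2) (fun t ht => (W t ht).r') ((h₂.inn _).2 a2)
    hε f2 x₀
  obtain ⟨R, hR⟩ := c₁.bddAbove_image S.cd.continuousOn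
  obtain ⟨R', hR'⟩ := c₂.bddAbove_image S'.cd.continuousOn
  have p := le_abs_self R
  have p' := le_abs_self R'
  have q := abs_nonneg R
  have q' := abs_nonneg R'
  refine ⟨|R| + |R'| + 3, by linarith, fun t ht => ?_⟩
  have t3 : 3 ≤ t c := by linarith
  obtain ⟨-, K, a, eK, pK, qK⟩ := str hg hi t3
  have s₁ : K₁ ⊆ (l (t c)).source := fun x hx => by
    rw [S.src _ t3, mem_ofPred]; linarith [hR (mem_image_of_mem _ hx)]
  have s₂ : K₂ ⊆ (r (t c)).source := fun x hx => by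
    rw [S'.src _ t3, mem_ofPred]; linarith [hR' (mem_image_of_mem _ hx)]
  have k₁ : ∀ y, ∀ u ∈ Ioo 0 (t c), nn i x₀ true t (y, u) ∈ l (t c) '' K₁ → u ≤ R :=
    fun y u hu ⟨x, hx, e⟩ => S.eq t3 (s₁ hx) hu e ▸ hR (mem_image_of_mem _ hx)
  have k₂ : ∀ y, ∀ u ∈ Ioo 0 (t c), nn i x₀ true t (y, u) ∈ r (t c) '' K₂ → t c - u ≤ R' :=
    fun y u hu ⟨x, hx, e⟩ => S'.eq t3 (s₂ hx) ⟨sub_pos.2 hu.2, sub_lt_self _ hu.1⟩
      (e.trans (nn_flip hg hi x₀ true t t3 y u).symm) ▸ hR' (mem_image_of_mem _ hx)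
  refine ⟨(W t t3).l'.lit, (W t t3).r'.lit, ⟨c₁, c₂, s₁, s₂, disjoint_left.2 fun x m₁ m₂ => ?_⟩,
    fun K' e' z hz => ?_⟩
  · obtain ⟨⟨y, u⟩, hu, rfl⟩ : x ∈ nn i x₀ true t '' (univ ×ˢ Ioo 0 (t c)) := by
      rw [nn_img eK pK qK, ← (W t t3).cap K eK]
      exact ⟨(image_mono s₁ m₁ :).choose_spec.2 ▸ (l _).map_source (image_mono s₁ m₁ :).choose_spec.1,
        (image_mono s₂ m₂ :).choose_spec.2 ▸ (r _).map_source (image_mono s₂ m₂ :).choose_spec.1⟩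
    linarith [k₁ y u hu.2 m₁, k₂ y u hu.2 m₂]
  · obtain rfl : K = K' := Option.some_injective _ (eK.symm.trans e')
    have m : a + (|R| + |R'| + 3) < z.2 ∧ z.2 < a + t c - (|R| + |R'| + 3) := by
      simpa [Nk.deep, Jv, pK, qK] using hz.2
    have e : K.ψ z = nn i x₀ true t (z.1, z.2 - a) := by simp [nn, eK, org, pK, pm]
    have u : z.2 - a ∈ Ioo 0 (t c) := ⟨by linarith, by linarith⟩
    rw [e]
    exact ⟨fun k => by linarith [k₁ _ _ u k], fun k => by linarith [k₂ _ _ u k]⟩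

theorem wall {F : Fin 3 → Fin n → Sc g} {F₁ : Fin 3 → Fin n → Sc g₁} {F₂ : Fin 3 → Fin n → Sc g₂}
    (o : ∀ i a, (F i a).OK) (o₁ : ∀ i a, (F₁ i a).OK) (o₂ : ∀ i a, (F₂ i a).OK)
    (e : ∀ i a, ∃ T, ∀ t, T ≤ t c →
      F i a t = psh (l (t c)) (F₁ i a (t ∘ ι₁)) + psh (r (t c)) (F₂ i a (t ∘ ι₂))) :
    ∃ T, (∀ t, T ≤ t c →
      fm g F t = psh (l (t c)) (fm g₁ F₁ (t ∘ ι₁)) + psh (r (t c)) (fm g₂ F₂ (t ∘ ι₂))) ∧
      (∀ t, ∀ K ∈ (g.P t).nk i, ∀ x ∈ univ ×ˢ K.deep T, fm g F t (K.ψ x) = 0) ∧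
      ∀ s₁ s₂, (∀ t, Bd g₁ (fm g₁ F₁) s₁ t) → (∀ t, Bd g₂ (fm g₂ F₂) s₂ t) → ∀ t, T ≤ t c →
        Bd g (fm g F) (|s₁| + |s₂|) t := by
  obtain ⟨K₁, c₁, z₁⟩ := cpt_all h₁ o₁
  obtain ⟨K₂, c₂, z₂⟩ := cpt_all h₂ o₂
  obtain ⟨ρ, h3, k⟩ := sep H hg h₁ h₂ hi c₁ c₂
  choose T hT using e
  obtain ⟨T₀, b⟩ := Finite.bddAbove_range (uncurry T)
  have y₁ : ∀ t, ∀ x ∉ K₁, fm g₁ F₁ t x = 0 := fun t x k => frm_zero fun a => z₁ 0 a t x k
  have y₂ : ∀ t, ∀ x ∉ K₂, fm g₂ F₂ t x = 0 := fun t x k => frm_zero fun a => z₂ 0 a t x k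
  have s : ∀ t, max ρ T₀ ≤ t c →
      fm g F t = psh (l (t c)) (fm g₁ F₁ (t ∘ ι₁)) + psh (r (t c)) (fm g₂ F₂ (t ∘ ι₂)) := fun t ht =>
    let ⟨a1, a2, a3, _⟩ := k t (le_of_max_le_left ht)
    frm_split (F := fun i a => F i a t) (F₁ := fun i a => F₁ i a (t ∘ ι₁))
      (F₂ := fun i a => F₂ i a (t ∘ ι₂)) a1 a2 a3 (fun i a => (o i a).sm.sm trivial) (fun i a => z₁ i a _)
      (fun i a => z₂ i a _) fun i a => hT i a t ((b ⟨(i, a), rfl⟩).trans (le_of_max_le_right ht))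
  refine ⟨max ρ T₀, s, fun t K eK x hx => ?_, fun s₁ s₂ b₁ b₂ t ht => ?_⟩
  · rcases le_total (t c) (max ρ T₀) with j | j
    · exact (short hg hi (h3.le.trans (le_max_left _ _)) j K eK _ hx.2).elim
    · have := (k t (le_of_max_le_left j)).2.2.2 K eK x ⟨trivial, jv_mono (le_max_left ρ T₀) hx.2⟩
      rw [s t j, Pi.add_apply, psh_z (y₁ _) this.1, psh_z (y₂ _) this.2, add_zero]
  · obtain ⟨a1, a2, a3, -⟩ := k t (le_of_max_le_left ht)
    obtain ⟨d1, d2, d3, d4⟩ := bd_psh a1 c₁ a3.s₁ ((Cyc79.xf_fam h₁ o₁).1 _).1 (y₁ _) (b₁ _)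
    obtain ⟨d5, d6, d7, d8⟩ := bd_psh a2 c₂ a3.s₂ ((Cyc79.xf_fam h₂ o₂).1 _).1 (y₂ _) (b₂ _)
    rw [Bd, s t ht]
    exact ⟨CB_add d1 d5 d3 d7, (nrm_add_le _ d1 d2 d5 d6).trans (add_le_add d4 d8)⟩

omit hi in
theorem wl_tp : ∃ T, WT c i cap ι₁ ι₂ l r T := by
  obtain ⟨j₁, a1, j₂, a2, r₁, r₂, e, b1, b2, b3, b4, b5, b6, b7, b8, b9, b10, ⟨δ, W⟩, -⟩ := H.spl
  refine ⟨fun η₁ η₂ => Sum.elim η₁ η₂ ∘ e.symm, fun η₁ η₂ k₁ k₂ j => ?_, ?_, fun _ τ τ₁ τ₂ k =>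
    ⟨H.bij, j₁, a1, j₂, a2, r₁, r₂, e, b1, b2, b3, b4, b5, b6, b7, b8, b9, b10, ⟨δ, W⟩, fun w =>
      (k w).imp fun T k t ht => ⟨(k t ht).1, fun j => by simp [(k t ht).2], fun j => by simp [(k t ht).2]⟩⟩⟩
  · have key : ∀ {X₁ X : Mf 4} {n₁ n : ℕ} {b₁ : Bg X₁.I X₁.M κ lam ν n₁} {b : Bg X.I X.M κ lam ν n}
        {l : OpenPartialHomeomorph X₁.M X.M}, b₁.Lit b l → ∀ {C : Cut X₁.M κ ν}, b₁.CutOK C →
        C.Ξ.target ⊆ l.source → ∀ {Ξ : R4 → X.M}, (∀ y, Ξ y = l (C.Ξ y)) → ∀ {η}, b₁.Tst C.Ξ η →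
        b.Tst Ξ η := fun L C o s Ξ e η k => ⟨k.sm, k.cpt, fun y => by
      have m := s (C.Ξ.map_source (o.src ▸ mem_univ y))
      simpa only [e, Bg.pp, Bg.vol, L.p _ m, L.ρ _ _ m, L.o _ _ _ _ _ m] using k.pos y⟩
    have S := W (fun _ => 3) le_rfl
    obtain ⟨j | j, rfl⟩ := e.surjective j
    · simpa using ts_of hg (key S.l'.lit ((bgok h₁ _).ct j) (S.l'.ct j).1 (S.l'.ct j).2.1 (k₁ j _))
    · simpa using ts_of hg (key S.r'.lit ((bgok h₂ _).ct j) (S.r'.ct j).1 (S.r'.ct j).2.1 (k₂ j _))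
  · simp

end Crest.Agent.X212.Ext33
end
end

-- ▼ part X212/Ext33/Sys

/-!
# Row 212, LV-EXT-B (helper33): consistent test spinors, consistent functions
-/

set_option autoImplicit false
set_option linter.unusedSectionVars false
noncomputable section
open scoped Manifold ContDiff Topology InnerProductSpace
open MeasureTheory Set Function Filter

namespace Crest.Agent.X212.Ext33
open An Cyf70 Sw Flo2 Hp13.Ext Sob92
open Real (smoothTransition)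

variable {κ lam ν : Type} [Fintype κ] [Fintype lam] [Fintype ν] [DecidableEq ν]
  {g g' : Gc κ lam ν} {x y : Nod κ lam ν} {t : Tk g.k}

theorem k_le (hg : g.OK) (h : g.nc ≠ 0) : g.k ≤ 1 := by
  have := hg.k2; have := mt hg.nc2 h; omega

theorem sub1 (hg : g.OK) (h : g.nc ≠ 0) (c c' : Fin g.k) : c' = c := by
  have := k_le hg h; have := c.2; have := c'.2; exact Fin.ext (by omega)

theorem tk0 (h : g.k = 0) (s t : Tk g.k) : s = t := funext fun j => (h ▸ j).elim0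

theorem sp0 (h : g.nc = 0) (s t : Sp g) : s = t := funext fun j => (h ▸ j).elim0

/-- the transports at the faces of a node -/
structure ND (x : Nod κ lam ν) : Type where
  T0 : ∀ c, Sp (x.2.nd.g0 c) → Sp x.1
  T1 : ∀ c, Sp (x.2.nd.g1 c) → Sp (x.2.nd.g2 c) → Sp x.1
  T2 : ∀ c, Sp (x.2.nd.g2 c) → Sp (x.2.nd.g2' c)
  f0 : ∀ c, FT {t ∈ x.1.dom | t c = 0} (x.2.nd.ι0 c) (x.2.nd.φ0 c) (x.2.nd.n0 c) (T0 c)
  f1 : ∀ c, x.1.wl c = none → ∃ T, FT {t ∈ x.1.dom | t c = 1} (x.2.nd.ι1 c) (x.2.nd.l c 3)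
    (x.2.nd.n1 c) T ∧ ∀ a b, T1 c a b = T a
  f2 : ∀ c, x.1.wl c ≠ none → FT (x.2.nd.g2' c).dom (x.2.nd.ι3 c) (x.2.nd.φ2 c) (x.2.nd.n1 c) (T2 c)
  nk : ∀ c, ∀ i ∈ x.1.wl c, x.2.nd.cap c = false → WT c i false (x.2.nd.ι1 c)
    (x.2.nd.ι2 c ∘ x.2.nd.ι3 c) (x.2.nd.l c) (fun v => (x.2.nd.φ2 c).trans (x.2.nd.r c v)) (T1 c)
  cp : ∀ c, ∀ i ∈ x.1.wl c, x.2.nd.cap c = true → ∃ T, WT c i true (x.2.nd.ι1 c) (x.2.nd.ι2 c)
    (x.2.nd.l c) (x.2.nd.r c) T ∧ ∀ a b, T1 c a b = T a (T2 c b)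

theorem k2' {c : Fin x.1.k} (hc : x.1.wl c ≠ none) (h : (x.2.nd.g2' c).nc ≠ 0) :
    x.1.nc ≠ 0 ∧ (x.2.nd.g2' c).k = 0 := by
  obtain ⟨i, hi⟩ := Option.ne_none_iff_exists'.1 hc
  have := wl_dim (x.2.nd.wl c i hi).1
  have := k_le x.2.nd.ok (by omega)
  omega

theorem ND.ne (x : Nod κ lam ν) : Nonempty (ND x) := by
  have n := x.2.nd.ok
  choose T0 f0 using fun c => fc_tp (x.2.nd.f0 c).2 n (x.2.f0 c).nd.ok (t₀ := 0) ⟨zero_dom _, rfl⟩
    fun h t ht => funext fun j => sub1 n h c j ▸ ht.2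
  choose! T2 f2 using fun c (hc : x.1.wl c ≠ none) =>
    let k := x.2.nd.wl c _ (Option.ne_none_iff_exists'.1 hc).choose_spec
    fc_tp k.2.2.2.1 k.2.1 (x.2.f2 c).nd.ok (zero_dom _) fun h t _ => tk0 (k2' hc h).2 _ _
  have : ∀ c, ∃ T1 : Sp (x.2.nd.g1 c) → Sp (x.2.nd.g2 c) → Sp x.1, (x.1.wl c = none →
      ∃ T, FT {t ∈ x.1.dom | t c = 1} (x.2.nd.ι1 c) (x.2.nd.l c 3) (x.2.nd.n1 c) T ∧
        ∀ a b, T1 a b = T a) ∧ (∀ i ∈ x.1.wl c, x.2.nd.cap c = false → WT c i false (x.2.nd.ι1 c)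
      (x.2.nd.ι2 c ∘ x.2.nd.ι3 c) (x.2.nd.l c) (fun v => (x.2.nd.φ2 c).trans (x.2.nd.r c v)) T1) ∧
      ∀ i ∈ x.1.wl c, x.2.nd.cap c = true → ∃ T, WT c i true (x.2.nd.ι1 c) (x.2.nd.ι2 c)
        (x.2.nd.l c) (x.2.nd.r c) T ∧ ∀ a b, T1 a b = T a (T2 c b) := fun c => by
    rcases hi : x.1.wl c with _ | i
    · obtain ⟨T, k⟩ := fc_tp (x.2.nd.f1 c hi).2.2 n (x.2.f1 c).nd.ok (t₀ := fun _ => 1)
        ⟨fun _ => ⟨zero_le_one, fun _ => le_rfl⟩, rfl⟩ fun h t ht => funext fun j => sub1 n h c j ▸ ht.2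
      exact ⟨fun a _ => T a, fun _ => ⟨T, k, fun _ _ => rfl⟩, by simp, by simp⟩
    have W := x.2.nd.wl c i hi
    cases hc : x.2.nd.cap c
    · obtain ⟨T, k⟩ := wl_tp (wl_lit W.1 (x.2.nd.lit c hc)) n (x.2.f1 c).nd.ok (x.2.f2 c).nd.ok
      exact ⟨T, by simp, by simpa [hc] using k, by simp⟩
    · obtain ⟨T, k⟩ := wl_tp W.1 n (x.2.f1 c).nd.ok W.2.1
      exact ⟨fun a b => T a (T2 c b), by simp, by simp, by
        simpa using ⟨T, hc ▸ k, fun _ _ => rfl⟩⟩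
  choose T1 a1 a2 a3 using this
  exact ⟨⟨T0, T1, T2, f0, a1, f2, a2, a3⟩⟩

/-- the chosen transports -/
def nd (x : Nod κ lam ν) : ND x := (ND.ne x).some

theorem ND.t1 (N : ND x) (c : Fin x.1.k) : (∀ a b, Ts _ a → Ts _ b → Ts _ (N.T1 c a b)) ∧
    ∀ b, (x.1.wl c ≠ none → b = 0) → N.T1 c 0 b = 0 := by
  rcases hi : x.1.wl c with _ | i
  · obtain ⟨T, k, e⟩ := N.f1 c hi
    exact ⟨fun a b h _ => e a b ▸ k.1.ts a h, fun b _ => (e 0 b).trans k.1.z⟩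
  cases hc : x.2.nd.cap c
  · exact ⟨(N.nk c i hi hc).1, fun b h => h (by simp) ▸ (N.nk c i hi hc).2.1⟩
  · obtain ⟨T, k, e⟩ := N.cp c i hi hc
    have j := (N.f2 c (by simp [hi])).1
    exact ⟨fun a b h h' => e a b ▸ k.1 _ _ h (j.ts b h'), fun b h => by
      rw [h (by simp), e, j.z, k.2.1]⟩

/-! ### bump functions -/

/-- the interior of the cube -/
def inn (g : Gc κ lam ν) : Set (Tk g.k) := {t | ∀ c, 0 < t c ∧ (g.wl c = none → t c < 1)}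

/-- bump functions -/
structure Bmp (g : Gc κ lam ν) (b : Tk g.k → ℝ) : Prop where
  sm : ContDiff ℝ ∞ b
  z : ∀ t ∉ inn g, b t = 0
  far : ∃ T, ∀ t c, T ≤ t c → b t = 0
  le : ∀ t, |b t| ≤ 1

theorem bmp_ex (ht : t ∈ inn g) : ∃ b, Bmp g b ∧ b t = 1 := by
  have : inn g ∈ 𝓝 t := eventually_all.2 fun c =>
    ((continuous_apply c).continuousAt.eventually (lt_mem_nhds (ht c).1)).and
      (eventually_imp_distrib_left.2 fun k =>
        (continuous_apply c).continuousAt.eventually (gt_mem_nhds ((ht c).2 k)))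
  obtain ⟨b, a1, a2, a3, a4, a5⟩ := exists_contDiff_tsupport_subset (n := ⊤) this
  obtain ⟨R, hR⟩ := a2.isCompact.isBounded.exists_norm_le
  exact ⟨b, ⟨a3, fun s k => image_eq_zero_of_notMem_tsupport fun j => k (a1 j),
    ⟨R + 1, fun s c k => image_eq_zero_of_notMem_tsupport fun j => by
      linarith [hR s j, norm_le_pi_norm s c, le_abs_self (s c), Real.norm_eq_abs (s c)]⟩,
    fun s => abs_le.2 ⟨by linarith [(a4 ⟨s, rfl⟩).1], (a4 ⟨s, rfl⟩).2⟩⟩, a5⟩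

theorem inn_or (ht : t ∈ g.dom) : t ∈ inn g ∨ (∃ c, t c = 0) ∨ ∃ c, g.wl c = none ∧ t c = 1 := by
  by_contra! h
  exact h.1 fun c => ⟨(ht c).1.lt_of_ne' (h.2.1 c), fun k => ((ht c).2 k).lt_of_ne (h.2.2 c k)⟩

theorem Bmp.clp {b : Tk g.k → ℝ} (h : Bmp g b) (t : Tk g.k) : b (g.clp t) = b t := by
  by_cases k : g.clp t ∈ inn g
  · congr 1
    funext c
    have := k c
    rcases e : g.wl c with _ | i <;> simp only [Bs.clp, e, Option.elim] at this ⊢ <;> grind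
  · rw [h.z _ k, h.z _ fun j => k fun c => ?_]
    have := j c
    rcases e : g.wl c with _ | i <;> simp only [Bs.clp, e, Option.elim] at this ⊢ <;> grind

/-! ### test spinors -/

theorem ts_zero : Ts g 0 := fun _ _ => ⟨contDiff_const, .zero, fun _ => map_zero _⟩

theorem ts_smul {e : Sp g} (h : Ts g e) (r : ℝ) : Ts g (r • e) := fun j t =>
  ⟨(h j t).sm.const_smul r, (h j t).cpt.mono fun y hy k => hy (by simp [k]),
    fun y => by simp [(h j t).pos]⟩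

theorem ts_single (hg : g.OK) {j : Fin g.nc} {η : R4 → Eu ν}
    (h : (g.P t).bg.Tst ((g.P t).bg.ct j).Ξ η) : Ts g (Pi.single j η) := fun j' => by
  rcases eq_or_ne j' j with rfl | k
  · simpa using ts_of hg h
  · simpa [k] using ts_zero j'

/-- good families of test spinors -/
def EK (g : Gc κ lam ν) (E : Tk g.k → Sp g) : Prop := (∀ t, Ts g (E t)) ∧
  (∀ j, JC univ fun t => E t j) ∧ ∃ s, ∀ t j, ∫ y, ‖E t j y‖ ∂leb R4 ≤ s

theorem ek_smul {b : Tk g.k → ℝ} (hb : ContDiff ℝ ∞ b) (h1 : ∀ t, |b t| ≤ 1) {e : Sp g} (h : Ts g e) :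
    EK g fun t => b t • e := by
  obtain ⟨s, hs⟩ := Finite.bddAbove_range fun j => ∫ y, ‖e j y‖ ∂leb R4
  refine ⟨fun t => ts_smul h _, fun j => ⟨((hb.comp contDiff_fst).smul
    ((h j 0).sm.comp contDiff_snd)).contDiffOn, _, (h j 0).cpt, fun t _ y hy => by
      simp [image_eq_zero_of_notMem_tsupport hy]⟩, s, fun t j => ?_⟩
  simp only [Pi.smul_apply, norm_smul, integral_const_mul]
  exact (mul_le_of_le_one_left (integral_nonneg fun _ => norm_nonneg _) (h1 t)).trans (hs ⟨j, rfl⟩)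

theorem EK.add {E E' : Tk g.k → Sp g} (h : EK g E) (h' : EK g E') : EK g (E + E') := by
  obtain ⟨a1, a2, s, a3⟩ := h
  obtain ⟨b1, b2, s', b3⟩ := h'
  have i : ∀ {e : Sp g}, Ts g e → ∀ j, Integrable (fun y => ‖e j y‖) (leb R4) := fun h j =>
    ((h j 0).sm.continuous.integrable_of_hasCompactSupport (h j 0).cpt).norm
  have k : ∀ t, Ts g (E t + E' t) := fun t j u => ⟨(a1 t j u).sm.add (b1 t j u).sm,
    (a1 t j u).cpt.add (b1 t j u).cpt, fun y => by simp [(a1 t j u).pos, (b1 t j u).pos]⟩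
  refine ⟨k, fun j => ?_, s + s', fun t j => (integral_mono (i (k t) j) ((i (a1 t) j).add (i (b1 t) j))
    fun y => norm_add_le _ _).trans ?_⟩
  · obtain ⟨c1, K, c2, c3⟩ := a2 j
    obtain ⟨d1, K', d2, d3⟩ := b2 j
    exact ⟨c1.add d1, _, c2.union d2, fun t _ y hy => by
      simp [c3 t trivial y fun k => hy (.inl k), d3 t trivial y fun k => hy (.inr k)]⟩
  · exact (integral_add (i (a1 t) j) (i (b1 t) j)).trans_le (add_le_add (a3 t j) (b3 t j))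

/-- free parts of the test spinors -/
abbrev VS (κ lam ν : Type) [Fintype κ] [Fintype lam] [Fintype ν] [DecidableEq ν] : Type 1 :=
  ∀ x : Nod κ lam ν, Tk x.1.k → Sp x.1

/-- good free parts -/
def VK (V : VS κ lam ν) : Prop := ∀ x, ∃ b e, Bmp x.1 b ∧ Ts x.1 e ∧ V x = fun t => b t • e

variable {V : VS κ lam ν}

theorem VK.ts (h : VK V) (x : Nod κ lam ν) (t : Tk x.1.k) : Ts x.1 (V x t) :=
  let ⟨_, _, _, a, e⟩ := h x; e ▸ ts_smul a _

theorem vk0 (x : Nod κ lam ν) : ∃ b e, Bmp x.1 b ∧ Ts x.1 e ∧ (0 : VS κ lam ν) x = fun t => b t • e :=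
  ⟨0, 0, ⟨contDiff_const, fun _ _ => rfl, ⟨0, fun _ _ _ => rfl⟩, by simp⟩, ts_zero, by ext; simp⟩

open Classical in
theorem vk_ex {t : Tk y.1.k} (ht : t ∈ inn y.1) {e : Sp y.1} (h : Ts _ e) :
    ∃ V, VK V ∧ V y t = e ∧ ∀ z ≠ y, V z = 0 := by
  obtain ⟨b, a1, a2⟩ := bmp_ex ht
  refine ⟨update 0 y fun s => b s • e, fun z => ?_, by simp [a2], fun z k => update_of_ne k _ _⟩
  rcases eq_or_ne z y with rfl | k
  · exact ⟨b, e, a1, h, update_self ..⟩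
  · rw [update_of_ne k]; exact vk0 z

/-- the test spinors of a system -/
def ets (V : VS κ lam ν) (x : Nod κ lam ν) (t : Tk x.1.k) : Sp x.1 :=
  ∑ c, ((1 - smoothTransition (t c)) • (nd x).T0 c (V ⟨_, x.2.f0 c⟩ 0) +
    smoothTransition (t c) • (nd x).T1 c (V ⟨_, x.2.f1 c⟩ 0) (V ⟨_, x.2.f2 c⟩ 0)) + V x t

theorem ek_ets (h : VK V) (x : Nod κ lam ν) : EK x.1 (ets V x) := by
  obtain ⟨b, e, a1, a2, a3⟩ := h x
  have s : ∀ c, ContDiff ℝ ∞ fun t : Tk x.1.k => smoothTransition (t c) := fun c =>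
    smoothTransition.contDiff.comp (contDiff_apply ℝ ℝ c)
  have := (Finset.sum_induction (s := Finset.univ) _ (EK x.1) (fun _ _ => EK.add)
    ⟨fun _ => ts_zero, fun _ => ⟨contDiffOn_const, ∅, isCompact_empty, fun _ _ _ _ => rfl⟩, 0,
      fun _ _ => by simp⟩ fun c _ =>
    (ek_smul ((contDiff_const (c := 1)).sub (s c)) (fun t => abs_le.2 ⟨by
      linarith [smoothTransition.le_one (t c)], by linarith [smoothTransition.nonneg (t c)]⟩)
      (((nd x).f0 c).1.ts _ (h.ts ⟨_, x.2.f0 c⟩ 0))).add (ek_smul (s c) (fun t => abs_le.2 ⟨by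
        linarith [smoothTransition.nonneg (t c)], smoothTransition.le_one _⟩)
        (((nd x).t1 c).1 _ _ (h.ts ⟨_, x.2.f1 c⟩ 0) (h.ts ⟨_, x.2.f2 c⟩ 0)))).add
    (a3 ▸ ek_smul a1.sm a1.le a2 : EK x.1 (V x))
  convert this using 1
  funext t
  simp only [ets, Pi.add_apply, Finset.sum_apply]

theorem ets_at (h : x.1.nc ≠ 0) (c : Fin x.1.k) (t : Tk x.1.k) : ets V x t =
    (1 - smoothTransition (t c)) • (nd x).T0 c (V ⟨_, x.2.f0 c⟩ 0) +
      smoothTransition (t c) • (nd x).T1 c (V ⟨_, x.2.f1 c⟩ 0) (V ⟨_, x.2.f2 c⟩ 0) + V x t := by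
  rw [ets, Fintype.sum_eq_single c fun c' k => (k (sub1 x.2.nd.ok h c c')).elim]

theorem ets_ch (h : x.1.nc ≠ 0) (k : x.Ch y) (s : Tk y.1.k) : ets V y s = V y 0 := by
  have e : y.1.k = 0 := by have := k_le x.2.nd.ok h; have := ch_lt k; omega
  rw [ets, tk0 e s 0, Finset.sum_eq_zero fun c => (e ▸ c).elim0, zero_add]

theorem VK.z (h : VK V) {t : Tk x.1.k} (k : t ∉ inn x.1) : V x t = 0 :=
  let ⟨_, _, a, _, e⟩ := h x; by simp [e, a.z t k]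

theorem ets_f0 (h : VK V) {c : Fin x.1.k} {t : Tk x.1.k} (e : t c = 0) (s) :
    ets V x t = (nd x).T0 c (ets V ⟨_, x.2.f0 c⟩ s) := by
  by_cases n : x.1.nc = 0
  · exact sp0 n _ _
  rw [ets_at n c, ets_ch n ⟨c, .inl rfl⟩, h.z fun k => (k c).1.ne' e, e]
  simp

theorem ets_f1 (h : VK V) (c : Fin x.1.k) : ∃ T, ∀ t : Tk x.1.k, (x.1.wl c = none ∧ t c = 1) ∨ T ≤ t c →
    ∀ s, ets V x t = (nd x).T1 c (ets V ⟨_, x.2.f1 c⟩ s) (V ⟨_, x.2.f2 c⟩ 0) := by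
  obtain ⟨b, e, a1, -, a3⟩ := h x
  obtain ⟨T, a2⟩ := a1.far
  refine ⟨max 1 T, fun t ht s => ?_⟩
  by_cases n : x.1.nc = 0
  · exact sp0 n _ _
  rw [ets_at n c, ets_ch n ⟨c, .inr (.inl rfl)⟩, smoothTransition.one_of_one_le
    (ht.elim (·.2.ge) le_of_max_le_left), show V x t = 0 from ht.elim
      (fun j => h.z fun k => ((k c).2 j.1).ne j.2) fun j => by simp [a3, a2 t c (le_of_max_le_right j)]]
  simp

theorem ets_zero (x : Nod κ lam ν) (t : Tk x.1.k) : ets 0 x t = 0 := by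
  simp [ets, fun c => ((nd x).f0 c).1.z, fun c => ((nd x).t1 c).2 0 fun _ => rfl]

theorem ets_rich {t : Tk x.1.k} (ht : t ∈ x.1.dom) {e : Sp x.1} (h : Ts _ e) :
    ∃ V, VK V ∧ ets V x t = e := by
  by_cases n : x.1.nc = 0
  · exact ⟨0, vk0, sp0 n _ _⟩
  have i : ∀ y, x.Ch y → 0 ∈ inn y.1 := fun y k c => by
    have := k_le x.2.nd.ok n; have := ch_lt k; have := c.2; omega
  obtain k | ⟨c, k⟩ | ⟨c, hc, k⟩ := inn_or ht
  · obtain ⟨V, a1, a2, a3⟩ := vk_ex k h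
    have z : ∀ y, x.Ch y → V y 0 = 0 := fun y j => by rw [a3 y fun e => (ch_lt j).ne (e ▸ rfl)]; rfl
    refine ⟨V, a1, ?_⟩
    rw [ets, a2, Finset.sum_eq_zero fun c _ => ?_, zero_add]
    rw [z _ ⟨c, .inl rfl⟩, z _ ⟨c, .inr (.inl rfl)⟩, ((nd x).f0 c).1.z,
      ((nd x).t1 c).2 _ fun j => z _ ⟨c, .inr (.inr ⟨j, rfl⟩)⟩, smul_zero, smul_zero, add_zero]
  · obtain ⟨e', b1, b2⟩ := ((nd x).f0 c).1.sur e h
    obtain ⟨V, a1, a2, -⟩ := vk_ex (i _ ⟨c, .inl rfl⟩) b1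
    exact ⟨V, a1, by rw [ets_f0 a1 k 0, ets_ch n ⟨c, .inl rfl⟩, a2, b2]⟩
  · obtain ⟨T, b3, b4⟩ := (nd x).f1 c hc
    obtain ⟨e', b1, b2⟩ := b3.1.sur e h
    obtain ⟨V, a1, a2, -⟩ := vk_ex (i _ ⟨c, .inr (.inl rfl)⟩) b1
    exact ⟨V, a1, by
      rw [(ets_f1 a1 c).choose_spec t (.inl ⟨hc, k⟩) 0, ets_ch n ⟨c, .inr (.inl rfl)⟩, a2, b4, b2]⟩

/-! ### functions -/

theorem sec_fc {D ι φ n} (h : g.Fc g' D ι φ n) (hD : D.Nonempty) {f : g.X.M → ℝ}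
    (hf : f ∈ Sec g.X.I (triv g.X.M ℝ)) : f ∘ φ ∈ Sec g'.X.I (triv g'.X.M ℝ) := by
  obtain ⟨e, r, -, -, -, -, -, k⟩ := h.iso
  obtain ⟨_, _, _, _, -, k⟩ := k _ hD.some_mem
  obtain ⟨_, m⟩ := k.iso.g
  exact ⟨hf.1.comp (contMDiffOn_univ.1 (k.src ▸ m.sm)), by
    simpa [pull, k.src] using hcs_pull (φ := φ) hf.2.1 (k.tgt ▸ subset_univ _), fun _ => rfl⟩

variable {mk : Mk κ lam ν} {𝒦 : Set (Nod κ lam ν)}

theorem sc_rich (hc : Cld 𝒦) (hw : ∀ x ∈ 𝒦, x.2.WF mk) (hx : x ∈ 𝒦) {t : Tk x.1.k} (ht : t ∈ x.1.dom)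
    {f : x.1.X.M → ℝ} (hf : f ∈ Sec x.1.X.I (triv x.1.X.M ℝ)) : ∃ F : ∀ y : Nod κ lam ν, Sc y.1,
      (∀ y ∈ 𝒦, (F y).OK ∧ Con y (F y) F) ∧ F x t = f := by
  induction' hn : x.1.k using Nat.strong_induction_on with n ih generalizing x
  subst hn
  obtain k | ⟨c, k⟩ | ⟨c, e, k⟩ := inn_or ht
  · obtain ⟨b, a1, a2⟩ := bmp_ex k
    obtain ⟨T, a3⟩ := a1.far
    obtain ⟨F, b1, b2⟩ := extG mk 𝒦 hc hw x hx _ (ok_smul (ok_of (f := fun _ => f)
      (fun _ _ y => .of_fixed (hf.1 y)) hf.2.1 (fun _ _ => image_eq_zero_of_notMem_tsupport)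
      fun _ => rfl) a1.sm a1.clp) ⟨fun c t _ k y => by simp [a1.z t fun j => (j c).1.ne' k],
        fun c e t _ k y => by simp [a1.z t fun j => ((j c).2 e).ne k],
        fun c _ => ⟨T, fun t k => by simp [a3 t c k, psh_zero]⟩⟩
    exact ⟨F, b2, by simp [b1, a2]⟩
  · have q := (x.2.nd.f0 c).2
    obtain ⟨F, b1, b2⟩ := ih _ (ch_lt ⟨c, .inl rfl⟩) (hc x hx c).1 ((fc_mt q).dom ht)
      (sec_fc q ⟨t, ht, k⟩ hf) rfl
    exact ⟨F, b1, ((eq_psh (gl0 x.2 c).1 (gl0 x.2 c).2).2 fun y => ((b1 x hx).2.f0 c t ht k y).trans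
      (congrFun b2 y)).trans ((eq_psh (gl0 x.2 c).1 (gl0 x.2 c).2).2 fun _ => rfl).symm⟩
  · have q := (x.2.nd.f1 c e).2.2
    obtain ⟨F, b1, b2⟩ := ih _ (ch_lt ⟨c, .inr (.inl rfl)⟩) (hc x hx c).2.1 ((fc_mt q).dom ht)
      (sec_fc q ⟨t, ht, k⟩ hf) rfl
    exact ⟨F, b1, ((eq_psh (gl1 x.2 e).1 (gl1 x.2 e).2).2 fun y => ((b1 x hx).2.f1 c e t ht k y).trans
      (congrFun b2 y)).trans ((eq_psh (gl1 x.2 e).1 (gl1 x.2 e).2).2 fun _ => rfl).symm⟩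

end Crest.Agent.X212.Ext33
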